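import Vale.Agent.P057Z.Ke.Sm

/-!
P057 (block Ke): a biased bilinear form is major arc (VIN).
-/

set_option linter.unusedSectionVars false

open Finset
open scoped BigOperators

noncomputable section

namespace Vale.Agent.P057Z.Ke

open Vale.Agent.P057Z

variable {Q : ℕ} [Fact Q.Prime] {n : ℕ}

theorem card_le_of_diam (F : Finset ℕ) {ρ : ℝ} (hρ : 0 ≤ ρ)
    (h : ∀ a ∈ F, ∀ b ∈ F, (a : ℝ) - b ≤ ρ) : (F.card : ℝ) ≤ ρ + 1 := by
  rcases F.eq_empty_or_nonempty with h0 | h0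
  · rw [h0, card_empty, Nat.cast_zero]
    linarith
  have h1 : F ⊆ Icc (F.min' h0) (F.min' h0 + ⌊ρ⌋₊) := by
    intro a ha
    have h2 := F.min'_le a ha
    have h3 := h a ha _ (F.min'_mem h0)
    rw [← Nat.cast_sub h2] at h3
    have h4 := Nat.le_floor h3
    exact mem_Icc.2 ⟨h2, by omega⟩
  have h2 := card_le_card h1
  rw [Nat.card_Icc] at h2
  have h3 : F.card ≤ ⌊ρ⌋₊ + 1 := by omega
  have h4 : (F.card : ℝ) ≤ ⌊ρ⌋₊ + 1 := by exact_mod_cast h3
  linarith [Nat.floor_le hρ]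

/-- counting the multiples of `γ` that lie in a short arc -/
theorem vin_core (γ : ZMod Q) (S : Finset ℕ) {L ε : ℝ} (hL0 : 0 ≤ L) (hε0 : 0 ≤ ε)
    (hε : ε ≤ 1 / 2) (hγ : 0 < nm γ) (hL : ∀ q ∈ S, (q : ℝ) ≤ L)
    (hS : ∀ q ∈ S, ∀ q' ∈ S, nm (((q : ZMod Q) - (q' : ZMod Q)) * γ) ≤ ε) :
    (S.card : ℝ) ≤ (2 * L * nm γ + 2) * (2 * ε / nm γ + 1) := by
  rcases S.eq_empty_or_nonempty with h0 | ⟨q0, hq0⟩
  · rw [h0, card_empty, Nat.cast_zero]
    positivity
  obtain ⟨z, hz1, hz2⟩ := exists_int γ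
  have hQ : (0 : ℝ) < Q := Qpos
  have hex : ∀ q : ℕ, ∃ w r : ℤ, ((q : ℤ) - q0) * z = Q * w + r ∧
      |(r : ℝ)| = Q * nm (((q : ZMod Q) - (q0 : ZMod Q)) * γ) := by
    intro q
    obtain ⟨r, hr1, hr2⟩ := exists_int (((q : ZMod Q) - (q0 : ZMod Q)) * γ)
    have h1 : (r : ZMod Q) = ((((q : ℤ) - q0) * z : ℤ) : ZMod Q) := by
      rw [hr1, ← hz1]
      push_cast
      rfl
    obtain ⟨w, hw⟩ := (ZMod.intCast_eq_intCast_iff_dvd_sub _ _ _).1 h1
    exact ⟨w, r, by linarith, hr2⟩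
  choose w r hw hr using hex
  have hw' : ∀ q : ℕ, ((q : ℝ) - q0) * z = Q * w q + r q := fun q => by exact_mod_cast hw q
  have hr' : ∀ q ∈ S, |(r q : ℝ)| ≤ Q * ε := fun q hq => by
    rw [hr]
    exact mul_le_mul_of_nonneg_left (hS q hq q0 hq0) hQ.le
  set θ := nm γ with hθ
  set N : ℕ := ⌊L * θ + ε⌋₊ with hN
  have hN1 : (N : ℝ) ≤ L * θ + ε := Nat.floor_le (by positivity)
  have hmap : ∀ q ∈ S, w q ∈ Icc (-(N : ℤ)) N := by
    intro q hq
    have h1 : |(q : ℝ) - q0| ≤ L := by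
      have a1 := hL q hq
      have a2 := hL q0 hq0
      have a3 : (0 : ℝ) ≤ q := Nat.cast_nonneg _
      have a4 : (0 : ℝ) ≤ q0 := Nat.cast_nonneg _
      rw [abs_le]
      constructor <;> linarith
    have h2 : Q * |(w q : ℝ)| ≤ Q * (L * θ + ε) := by
      calc Q * |(w q : ℝ)| = |((q : ℝ) - q0) * z - r q| := by
            rw [hw', add_sub_cancel_right, abs_mul, abs_of_pos hQ]
        _ ≤ |((q : ℝ) - q0) * z| + |(r q : ℝ)| := abs_sub _ _
        _ ≤ L * (Q * θ) + Q * ε := by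
            rw [abs_mul, hz2]
            have := hr' q hq
            gcongr
        _ = _ := by ring
    have h3 : ((w q).natAbs : ℝ) ≤ L * θ + ε := by
      rw [Nat.cast_natAbs, Int.cast_abs]
      exact le_of_mul_le_mul_left h2 hQ
    have h4 := Nat.le_floor h3
    rw [mem_Icc]
    omega
  have hfib : ∀ b ∈ Icc (-(N : ℤ)) N, ((S.filter fun q => w q = b).card : ℝ) ≤ 2 * ε / θ + 1 := by
    intro b _
    refine card_le_of_diam _ (by positivity) fun q hq q' hq' => (le_abs_self _).trans ?_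
    obtain ⟨a1, a2⟩ := mem_filter.1 hq
    obtain ⟨a3, a4⟩ := mem_filter.1 hq'
    have h1 : ((q : ℝ) - q') * z = r q - r q' := by
      have b1 := hw' q
      have b2 := hw' q'
      rw [a2] at b1
      rw [a4] at b2
      linarith
    have h2 : Q * (|(q : ℝ) - q'| * θ) ≤ Q * (2 * ε) := by
      calc Q * (|(q : ℝ) - q'| * θ) = |((q : ℝ) - q') * z| := by
            rw [abs_mul, hz2]
            ring
        _ ≤ |(r q : ℝ)| + |(r q' : ℝ)| := by
            rw [h1]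
            exact abs_sub _ _
        _ ≤ Q * (2 * ε) := by linarith [hr' q a1, hr' q' a3]
    rw [le_div_iff₀ hγ]
    exact le_of_mul_le_mul_left h2 hQ
  rw [card_eq_sum_card_fiberwise (f := w) (t := Icc (-(N : ℤ)) N) fun q hq => hmap q hq]
  push_cast
  refine (sum_le_card_nsmul _ _ _ hfib).trans ?_
  have h1 : (Icc (-(N : ℤ)) N).card = 2 * N + 1 := by
    rw [Int.card_Icc]
    omega
  rw [h1, nsmul_eq_mul]
  push_cast
  refine mul_le_mul_of_nonneg_right (by linarith) (by positivity)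

/-- the one dimensional statement -/
theorem vin_line {κ : Type*} (β : κ → ZMod Q) {T : ℕ} (S : Finset ℕ) (hST : S ⊆ range T)
    {α ε : ℝ} (hα : 0 < α) (hα1 : α ≤ 1) (hε0 : 0 ≤ ε) (hε : 24 * ε ≤ α) (hT : 16 ≤ α ^ 2 * T)
    (hS : α * T ≤ S.card) (h : ∀ s ∈ S, ∀ s' ∈ S, ∀ i, nm (((s : ZMod Q) - (s' : ZMod Q)) * β i) ≤ ε) :
    ∃ D : ℕ, 1 ≤ D ∧ (D : ℝ) ≤ 2 / α ∧ ∀ i, nm ((D : ZMod Q) * β i) ≤ 16 * ε / (α ^ 2 * T) := by
  have hT0 : (0 : ℝ) < T := by
    by_contra h0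
    have := mul_nonneg (sq_nonneg α) (neg_nonneg.2 (not_lt.1 h0))
    linarith
  have hαT : 16 ≤ α * T := by
    refine hT.trans (mul_le_mul_of_nonneg_right ?_ hT0.le)
    nlinarith
  obtain ⟨D, hD1, hD2, hD3⟩ : ∃ D : ℕ, 1 ≤ D ∧ (D : ℝ) ≤ 2 / α ∧
      ∀ i, nm ((D : ZMod Q) * β i) ≤ ε := by
    set b : ℕ := ⌊2 / α⌋₊ + 1 with hb
    have hb0 : 0 < b := Nat.succ_pos _
    have hb1 : 2 / α < b := by
      rw [hb]
      push_cast
      exact Nat.lt_floor_add_one _
    have hb2 : (0 : ℝ) < b := by exact_mod_cast hb0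
    have hlt : (range (T / b + 1)).card < S.card := by
      rw [card_range]
      have h1 : ((T / b : ℕ) : ℝ) ≤ T / b := Nat.cast_div_le
      have h2 : (T : ℝ) / b ≤ α * T / 2 := by
        rw [div_lt_iff₀ hα] at hb1
        rw [div_le_div_iff₀ hb2 two_pos]
        nlinarith
      have h3 : ((T / b + 1 : ℕ) : ℝ) < S.card := by
        push_cast
        linarith
      exact_mod_cast h3
    obtain ⟨x, hx, y, hy, hxy, hf⟩ := exists_ne_map_eq_of_card_lt_of_maps_to hlt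
      (f := fun s => s / b) fun s hs => mem_coe.2 (mem_range.2 (Nat.lt_succ_of_le
        (Nat.div_le_div_right (mem_range.1 (hST hs)).le)))
    wlog hlt' : y < x generalizing x y
    · exact this y hy x hx hxy.symm hf.symm (by omega)
    have e1 := Nat.div_add_mod x b
    have e2 := Nat.div_add_mod y b
    have e3 := Nat.mod_lt x hb0
    have e4 : x / b = y / b := hf
    rw [e4] at e1
    refine ⟨x - y, by omega, ?_, fun i => ?_⟩
    · have h1 : x - y ≤ ⌊2 / α⌋₊ := by omega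
      have h2 : ((x - y : ℕ) : ℝ) ≤ ⌊2 / α⌋₊ := by exact_mod_cast h1
      exact h2.trans (Nat.floor_le (by positivity))
    · rw [Nat.cast_sub hlt'.le]
      exact h x hx y hy i
  refine ⟨D, hD1, hD2, fun i => ?_⟩
  rcases (nm_nonneg ((D : ZMod Q) * β i)).eq_or_lt with h0 | h0
  · rw [← h0]
    positivity
  have hD0 : (0 : ℝ) < D := by exact_mod_cast hD1
  have hθ := hD3 i
  set θ := nm ((D : ZMod Q) * β i) with hθ'
  have hfib : ∀ ρ ∈ range D, ((S.filter fun s => s % D = ρ).card : ℝ) ≤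
      (2 * (T / D) * θ + 2) * (2 * ε / θ + 1) := by
    intro ρ _
    have hinj : Set.InjOn (fun s => s / D) (S.filter fun s => s % D = ρ : Finset ℕ) := by
      intro a ha c hc hac
      have e1 := Nat.div_add_mod a D
      have e2 := Nat.div_add_mod c D
      have e3 : a / D = c / D := hac
      rw [e3, (mem_filter.1 (mem_coe.1 ha)).2] at e1
      rw [(mem_filter.1 (mem_coe.1 hc)).2] at e2
      omega
    rw [← card_image_of_injOn hinj]
    refine vin_core _ _ (by positivity) hε0 (by linarith) h0 (fun q hq => ?_) fun q hq q' hq' => ?_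
    · obtain ⟨s, hs, rfl⟩ := mem_image.1 hq
      have h1 : (s : ℝ) ≤ T := by exact_mod_cast (mem_range.1 (hST (mem_filter.1 hs).1)).le
      exact Nat.cast_div_le.trans (div_le_div_of_nonneg_right h1 hD0.le)
    · obtain ⟨s, hs, rfl⟩ := mem_image.1 hq
      obtain ⟨s', hs', rfl⟩ := mem_image.1 hq'
      refine le_trans (le_of_eq ?_) (h s (mem_filter.1 hs).1 s' (mem_filter.1 hs').1 i)
      have e1 := Nat.div_add_mod s D
      have e2 := Nat.div_add_mod s' D
      rw [(mem_filter.1 hs).2] at e1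
      rw [(mem_filter.1 hs').2] at e2
      have e3 : (D : ZMod Q) * ((s / D : ℕ) : ZMod Q) + ρ = s := by exact_mod_cast congrArg (Nat.cast : ℕ → ZMod Q) e1
      have e4 : (D : ZMod Q) * ((s' / D : ℕ) : ZMod Q) + ρ = s' := by exact_mod_cast congrArg (Nat.cast : ℕ → ZMod Q) e2
      rw [← e3, ← e4]
      congr 1
      ring
  have h1 : (S.card : ℝ) ≤ D * ((2 * (T / D) * θ + 2) * (2 * ε / θ + 1)) := by
    rw [card_eq_sum_card_fiberwise (f := fun s => s % D) (t := range D)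
      fun s _ => mem_coe.2 (mem_range.2 (Nat.mod_lt _ hD1))]
    push_cast
    refine (sum_le_card_nsmul _ _ _ hfib).trans ?_
    rw [card_range, nsmul_eq_mul]
  have h2 : D * ((2 * (T / D) * θ + 2) * (2 * ε / θ + 1)) =
      4 * (ε * T) + 2 * (θ * T) + 2 * D + 4 * (ε / θ) * D := by
    field_simp
    ring
  have h3 : θ * T ≤ ε * T := mul_le_mul_of_nonneg_right hθ hT0.le
  have h4 : 24 * ε * T ≤ α * T := mul_le_mul_of_nonneg_right hε hT0.le
  have h5 : 2 / α ≤ α * T / 8 := by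
    rw [div_le_div_iff₀ hα (by norm_num)]
    nlinarith
  have h6 : 4 * (ε / θ) * D ≤ 4 * (ε / θ) * (2 / α) :=
    mul_le_mul_of_nonneg_left hD2 (by positivity)
  have h7 : α * T / 2 ≤ 4 * (ε / θ) * (2 / α) := by linarith
  rw [le_div_iff₀ (by positivity)]
  have h8 := mul_le_mul_of_nonneg_right h7 (by positivity : 0 ≤ 2 * θ * α)
  refine le_trans (le_of_eq ?_) (h8.trans (le_of_eq ?_))
  · ring
  · field_simp
    ring

/-- an average over a cube is an average over lines in a given direction -/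
theorem expect_update {β : Type*} (t : Finset β) (ht : t.Nonempty) (m : Fin n)
    (f : (Fin n → β) → ℝ) : 𝔼 y ∈ Fintype.piFinset (fun _ : Fin n => t), f y =
      𝔼 y ∈ Fintype.piFinset (fun _ : Fin n => t), 𝔼 s ∈ t, f (Function.update y m s) := by
  have hm : ∀ p ∈ Fintype.piFinset (fun _ : Fin n => t) ×ˢ t,
      (Function.update p.1 m p.2, p.1 m) ∈ Fintype.piFinset (fun _ : Fin n => t) ×ˢ t := by
    intro p hp
    obtain ⟨h1, h2⟩ := mem_product.1 hp
    refine mem_product.2 ⟨Fintype.mem_piFinset.2 fun i => ?_, Fintype.mem_piFinset.1 h1 m⟩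
    by_cases h : i = m
    · subst h
      simpa using h2
    · simpa [Function.update_of_ne h] using Fintype.mem_piFinset.1 h1 i
  rw [← expect_product' _ _ fun y s => f (Function.update y m s)]
  have h1 : 𝔼 y ∈ Fintype.piFinset (fun _ : Fin n => t), f y =
      𝔼 p ∈ Fintype.piFinset (fun _ : Fin n => t) ×ˢ t, f p.1 := by
    rw [expect_product]
    exact expect_congr rfl fun y _ => (expect_const ht _).symm
  rw [h1]
  exact expect_nbij' (fun p => (Function.update p.1 m p.2, p.1 m))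
    (fun p => (Function.update p.1 m p.2, p.1 m)) hm hm (fun p _ => by simp) (fun p _ => by simp)
    fun p _ => by simp

theorem expect_ch_lin {T : ℕ} (hT : T ≤ Q) (θ : V Q n →ₗ[ZMod Q] ZMod Q) :
    𝔼 x ∈ bx Q n T, ch (θ x) = ∏ i, dir T (θ (Pi.single i 1)) := by
  rw [expect_bx hT]
  unfold dir
  rw [← expect_pi_prod (range T) fun (i : Fin n) (x : ℕ) => ch ((x : ZMod Q) * θ (Pi.single i 1))]
  refine expect_congr rfl fun t _ => ?_
  rw [← ch_sum, LinearMap.pi_apply_eq_sum_univ]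
  congr 1
  refine sum_congr rfl fun i _ => ?_
  rw [smul_eq_mul]
  congr 2
  funext j
  rw [Pi.single_apply]
  simp [eq_comm]

theorem nm_mul_norm_expect_ch_le {T : ℕ} (hT1 : 1 ≤ T) (hT : T ≤ Q) (θ : V Q n →ₗ[ZMod Q] ZMod Q)
    (i : Fin n) : 2 * nm (θ (Pi.single i 1)) * T * ‖𝔼 x ∈ bx Q n T, ch (θ x)‖ ≤ 1 := by
  refine le_trans (mul_le_mul_of_nonneg_left ?_ ?_) (norm_dir_le hT1 _)
  · rw [expect_ch_lin hT, norm_prod, ← mul_prod_erase _ _ (mem_univ i)]
    exact mul_le_of_le_one_right (norm_nonneg _)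
      (prod_le_one (fun _ _ => norm_nonneg _) fun _ _ => norm_dir_le_one hT1 _)
  · have := nm_nonneg (θ (Pi.single i 1))
    positivity

theorem conj_expect' {α : Type*} (s : Finset α) (f : α → ℂ) :
    (starRingEnd ℂ) (𝔼 x ∈ s, f x) = 𝔼 x ∈ s, (starRingEnd ℂ) (f x) := by
  simp [expect_eq_sum_div_card, map_sum]

/-- the Cauchy-Schwarz step -/
theorem vin_cs {s t : Finset (V Q n)} (hs : s.Nonempty)
    (C : V Q n →ₗ[ZMod Q] V Q n →ₗ[ZMod Q] ZMod Q) {u v : V Q n → ℂ} (hu : ∀ x, ‖u x‖ ≤ 1)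
    (hv : ∀ y, ‖v y‖ ≤ 1) : ‖𝔼 x ∈ s, 𝔼 y ∈ t, u x * v y * ch (C x y)‖ ^ 2 ≤
      𝔼 y' ∈ t, 𝔼 y ∈ t, ‖𝔼 x ∈ s, ch (C x (y - y'))‖ := by
  set F : V Q n → ℂ := fun x => 𝔼 y ∈ t, v y * ch (C x y) with hF
  have h1 : ‖𝔼 x ∈ s, 𝔼 y ∈ t, u x * v y * ch (C x y)‖ ≤ 𝔼 x ∈ s, ‖F x‖ * 1 := by
    refine (RCLike.norm_expect_le (K := ℂ)).trans (expect_le_expect fun x _ => ?_)
    simp_rw [mul_assoc]
    rw [← mul_expect, norm_mul, mul_one]
    exact mul_le_of_le_one_left (norm_nonneg _) (hu x)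
  have h2 := expect_mul_sq_le_sq_mul_sq s (fun x => ‖F x‖) fun _ => (1 : ℝ)
  rw [one_pow, expect_const hs, mul_one] at h2
  refine ((pow_le_pow_left₀ (norm_nonneg _) h1 2).trans h2).trans ?_
  have h3 : ((𝔼 x ∈ s, ‖F x‖ ^ 2 : ℝ) : ℂ) =
      𝔼 y' ∈ t, 𝔼 y ∈ t, (starRingEnd ℂ) (v y') * v y * 𝔼 x ∈ s, ch (C x (y - y')) := by
    rw [ofReal_expect']
    have h4 : ∀ x, ((‖F x‖ ^ 2 : ℝ) : ℂ) =
        𝔼 y' ∈ t, 𝔼 y ∈ t, (starRingEnd ℂ) (v y') * v y * ch (C x (y - y')) := by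
      intro x
      rw [← Complex.normSq_eq_norm_sq, Complex.normSq_eq_conj_mul_self, hF, conj_expect',
        expect_mul_expect]
      refine expect_congr rfl fun y' _ => expect_congr rfl fun y _ => ?_
      rw [map_mul, ← ch_neg, map_sub, sub_eq_add_neg, ch_add]
      ring
    simp_rw [h4, mul_expect]
    rw [expect_comm]
    exact expect_congr rfl fun y' _ => expect_comm _ _ _
  refine (le_abs_self _).trans ?_
  rw [← Real.norm_eq_abs, ← Complex.norm_real, h3]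
  refine (RCLike.norm_expect_le (K := ℂ)).trans (expect_le_expect fun y' _ => ?_)
  refine (RCLike.norm_expect_le (K := ℂ)).trans (expect_le_expect fun y _ => ?_)
  rw [norm_mul, norm_mul, Complex.norm_conj]
  exact mul_le_of_le_one_left (norm_nonneg _) (mul_le_one₀ (hv y') (norm_nonneg _) (hv y))

theorem vin : VIN := by
  intro Q _ n T1 T2 δ C u v hδ hδ1 hT1 hT2 hQ1 hQ2 hu hv h
  classical
  have hδ6 : δ ^ 6 ≤ 1 := pow_le_one₀ hδ.le hδ1
  have hδ4 : δ ^ 4 ≤ 1 := pow_le_one₀ hδ.le hδ1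
  have hbig : ∀ T : ℝ, (10 / δ) ^ 10 ≤ T → 100 ≤ δ ^ 4 * T := by
    intro T hT
    have h0 : 0 ≤ T := le_trans (by positivity) hT
    rw [div_pow, div_le_iff₀ (by positivity)] at hT
    have h1 : T * δ ^ 10 = δ ^ 6 * (δ ^ 4 * T) := by ring
    have h2 : δ ^ 6 * (δ ^ 4 * T) ≤ δ ^ 4 * T := mul_le_of_le_one_left (by positivity) hδ6
    linarith
  have hpos : ∀ T : ℕ, (10 / δ) ^ 10 ≤ (T : ℝ) → 1 ≤ T := by
    intro T hT
    have h0 : (0 : ℝ) < T := lt_of_lt_of_le (by positivity) hT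
    exact_mod_cast h0
  have a1 := hpos T1 hT1
  have a2 := hpos T2 hT2
  have b1 := hbig _ hT1
  have b2 := hbig _ hT2
  have c1 : (0 : ℝ) < T1 := by exact_mod_cast a1
  have c2 : (0 : ℝ) < T2 := by exact_mod_cast a2
  obtain ⟨y', -, hy'⟩ := exists_le_of_le_expect (bx_nonempty a2)
    ((pow_le_pow_left₀ hδ.le h 2).trans (vin_cs (bx_nonempty a1) C hu hv))
  set G : V Q n → ℝ := fun y => ‖𝔼 x ∈ bx Q n T1, ch (C x (y - y'))‖ with hG
  have hG1 : ∀ y, G y ≤ 1 := fun y => norm_expect_le' (bx_nonempty a1) fun _ _ => (norm_ch _).le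
  have hG2 : ∀ y, δ ^ 2 / 2 ≤ G y → ∀ i, nm (C (Pi.single i 1) (y - y')) ≤ 1 / (δ ^ 2 * T1) := by
    intro y hy i
    have h1 : 2 * nm (C (Pi.single i 1) (y - y')) * T1 * G y ≤ 1 :=
      nm_mul_norm_expect_ch_le a1 hQ1 (C.flip (y - y')) i
    have h2 := nm_nonneg (C (Pi.single i 1) (y - y'))
    rw [le_div_iff₀ (by positivity)]
    calc _ = 2 * nm (C (Pi.single i 1) (y - y')) * T1 * (δ ^ 2 / 2) := by ring
      _ ≤ 2 * nm (C (Pi.single i 1) (y - y')) * T1 * G y := by gcongr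
      _ ≤ 1 := h1
  have key : ∀ m : Fin n, ∃ D : ℕ, 1 ≤ D ∧ (D : ℝ) ≤ 2 / (δ ^ 2 / 2) ∧
      ∀ i, nm ((D : ZMod Q) * C (Pi.single i 1) (Pi.single m 1)) ≤
        16 * (2 / (δ ^ 2 * T1)) / ((δ ^ 2 / 2) ^ 2 * T2) := by
    intro m
    have hr : (range T2).Nonempty := nonempty_range_iff.2 (by omega)
    have h1 : δ ^ 2 ≤ 𝔼 y ∈ bx Q n T2, 𝔼 s ∈ (range T2).image (Nat.cast : ℕ → ZMod Q),
        G (Function.update y m s) := hy'.trans (le_of_eq (expect_update _ (hr.image _) m G))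
    obtain ⟨y0, -, hy0⟩ := exists_le_of_le_expect (bx_nonempty a2) h1
    rw [expect_image (cast_injOn hQ2), expect_eq_sum_div_card, card_range, le_div_iff₀ c2] at hy0
    set S := (range T2).filter fun s : ℕ => δ ^ 2 / 2 ≤ G (Function.update y0 m s) with hS
    refine vin_line (fun i => C (Pi.single i 1) (Pi.single m 1)) S (filter_subset _ _)
      (by positivity) (by nlinarith) (by positivity) ?_ (by nlinarith) ?_ fun s hs s' hs' i => ?_
    · rw [← mul_div_assoc, div_le_div_iff₀ (by positivity) two_pos]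
      nlinarith
    · have h2 : ∑ s ∈ range T2, G (Function.update y0 m s) ≤
          ∑ s ∈ range T2, ((if δ ^ 2 / 2 ≤ G (Function.update y0 m s) then (1 : ℝ) else 0) +
            δ ^ 2 / 2) := by
        refine sum_le_sum fun s _ => ?_
        split_ifs with h3
        · linarith [hG1 (Function.update y0 m s), sq_nonneg δ]
        · linarith [not_le.1 h3]
      rw [sum_add_distrib, sum_boole, sum_const, card_range, nsmul_eq_mul] at h2
      linarith
    · have h2 : ((s : ZMod Q) - (s' : ZMod Q)) • (Pi.single m 1 : V Q n) =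
          (Function.update y0 m s - y') - (Function.update y0 m s' - y') := by
        funext j
        by_cases hj : j = m
        · subst hj
          simp
        · simp [Function.update_of_ne hj, Pi.single_eq_of_ne hj]
      rw [← smul_eq_mul, ← map_smul, h2, map_sub]
      refine (nm_sub_le _ _).trans ((add_le_add (hG2 _ (mem_filter.1 hs).2 i)
        (hG2 _ (mem_filter.1 hs').2 i)).trans (le_of_eq ?_))
      ring
  choose D hD1 hD2 hD3 using key
  refine ⟨D, fun m => ⟨hD1 m, (hD2 m).trans (le_of_eq ?_)⟩, fun i m => (hD3 m i).trans ?_⟩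
  · field_simp
    ring
  · calc 16 * (2 / (δ ^ 2 * T1)) / ((δ ^ 2 / 2) ^ 2 * T2) = 128 * δ ^ 4 / δ ^ 10 / (T1 * T2) := by
          field_simp
          ring
      _ ≤ 10 ^ 10 / δ ^ 10 / (T1 * T2) := by
          gcongr
          linarith
      _ = _ := by rw [div_pow]

end Vale.Agent.P057Z.Ke
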