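import Vale.Agent.P057Z.Ke.Eq
import Vale.Agent.P057Z.Ke.Vin

/-! P057 (block Ke): all statements of the block. -/

namespace Vale.Agent.P057Z.Ke

open Vale.Agent.P057Z

theorem all : FOL ∧ SM ∧ POP ∧ AVG ∧ EQ ∧ KILL ∧ VIN ∧ CR :=
  ⟨fol_, sm, pop, avg_, eq_, kill_, vin, cr⟩

end Vale.Agent.P057Z.Ke
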