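import Vale.Agent.P057Z.Ke.Nm

/-!
P057 (block Ke): boxes and their almost invariance under small translations.
-/

set_option linter.unusedSectionVars false

open Finset
open scoped BigOperators

noncomputable section

namespace Vale.Agent.P057Z.Ke

open Vale.Agent.P057Z

variable {Q : ℕ} [Fact Q.Prime] {n : ℕ}

theorem mem_bx {T : ℕ} {x : V Q n} :
    x ∈ bx Q n T ↔ ∀ i, ∃ t : ℕ, t < T ∧ (t : ZMod Q) = x i := by
  simp [bx, Fintype.mem_piFinset]

theorem mem_bx' {T : ℕ} {x : V Q n} :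
    x ∈ bx Q n T ↔ ∃ t : Fin n → ℕ, (∀ i, t i < T) ∧ x = fun i => (t i : ZMod Q) := by
  rw [mem_bx]
  constructor
  · intro h
    choose t ht hx using h
    exact ⟨t, ht, funext fun i => (hx i).symm⟩
  · rintro ⟨t, ht, rfl⟩ i
    exact ⟨t i, ht i, rfl⟩

theorem cast_mem_bx {T : ℕ} {t : Fin n → ℕ} (ht : ∀ i, t i < T) :
    (fun i => (t i : ZMod Q)) ∈ bx Q n T := mem_bx'.2 ⟨t, ht, rfl⟩

theorem zero_mem_bx {T : ℕ} (hT : 1 ≤ T) : (0 : V Q n) ∈ bx Q n T :=
  mem_bx.2 fun _ => ⟨0, hT, by simp⟩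

theorem bx_nonempty {T : ℕ} (hT : 1 ≤ T) : (bx Q n T).Nonempty := ⟨0, zero_mem_bx hT⟩

theorem bx_mono {T T' : ℕ} (h : T ≤ T') : bx Q n T ⊆ bx Q n T' := fun _ hx =>
  mem_bx.2 fun i => by
    obtain ⟨t, ht, h1⟩ := mem_bx.1 hx i
    exact ⟨t, ht.trans_le h, h1⟩

theorem cast_injOn {T : ℕ} (hT : T ≤ Q) :
    Set.InjOn (Nat.cast : ℕ → ZMod Q) (range T : Set ℕ) := by
  intro a ha b hb hab
  have ha' : a < Q := (mem_range.1 (mem_coe.1 ha)).trans_le hT
  have hb' : b < Q := (mem_range.1 (mem_coe.1 hb)).trans_le hT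
  have h := congrArg ZMod.val hab
  rwa [ZMod.val_cast_of_lt ha', ZMod.val_cast_of_lt hb'] at h

theorem card_seg {T : ℕ} (hT : T ≤ Q) :
    ((range T).image (Nat.cast : ℕ → ZMod Q)).card = T := by
  rw [card_image_of_injOn (cast_injOn hT), card_range]

theorem card_bx {T : ℕ} (hT : T ≤ Q) : (bx Q n T).card = T ^ n := by
  rw [bx, Fintype.card_piFinset]
  simp [card_seg hT]

/-- the box as the image of a cube of naturals -/
theorem bx_eq_image (T : ℕ) : bx Q n T =
    (Fintype.piFinset fun _ : Fin n => range T).image fun t i => (t i : ZMod Q) := by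
  ext x
  rw [mem_bx', mem_image]
  constructor
  · rintro ⟨t, ht, rfl⟩
    exact ⟨t, Fintype.mem_piFinset.2 fun i => mem_range.2 (ht i), rfl⟩
  · rintro ⟨t, ht, rfl⟩
    exact ⟨t, fun i => mem_range.1 (Fintype.mem_piFinset.1 ht i), rfl⟩

theorem cube_injOn {T : ℕ} (hT : T ≤ Q) :
    Set.InjOn (fun (t : Fin n → ℕ) i => (t i : ZMod Q))
      (Fintype.piFinset fun _ : Fin n => range T : Finset (Fin n → ℕ)) := by
  intro a ha b hb hab
  funext i
  exact cast_injOn hT (mem_coe.2 (Fintype.mem_piFinset.1 (mem_coe.1 ha) i))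
    (mem_coe.2 (Fintype.mem_piFinset.1 (mem_coe.1 hb) i)) (congrFun hab i)

theorem expect_bx {M : Type*} [AddCommMonoid M] [Module ℚ≥0 M] {T : ℕ} (hT : T ≤ Q)
    (f : V Q n → M) : 𝔼 x ∈ bx Q n T, f x =
      𝔼 t ∈ Fintype.piFinset (fun _ : Fin n => range T), f fun i => (t i : ZMod Q) := by
  rw [bx_eq_image, expect_image (cube_injOn hT)]

/-! ### small vectors -/

theorem near_of_mem_bx {T : ℕ} {x : V Q n} (hx : x ∈ bx Q n T) : Near x T := by
  obtain ⟨t, ht, rfl⟩ := mem_bx'.1 hx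
  refine ⟨fun i => t i, fun i => ?_, funext fun i => by simp [cs]⟩
  rw [Nat.abs_cast]
  exact_mod_cast (ht i).le

theorem near_mono {x : V Q n} {s t : ℕ} (h : Near x s) (hst : s ≤ t) : Near x t := by
  obtain ⟨v, hv, rfl⟩ := h
  exact ⟨v, fun i => (hv i).trans (by exact_mod_cast hst), rfl⟩

theorem near_zero (t : ℕ) : Near (0 : V Q n) t :=
  ⟨0, fun i => by simp, funext fun i => by simp [cs]⟩

theorem near_add {x y : V Q n} {s t : ℕ} (hx : Near x s) (hy : Near y t) :
    Near (x + y) (s + t) := by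
  obtain ⟨v, hv, rfl⟩ := hx
  obtain ⟨w, hw, rfl⟩ := hy
  refine ⟨v + w, fun i => ?_, funext fun i => by simp [cs]⟩
  push_cast
  exact (abs_add_le _ _).trans (add_le_add (hv i) (hw i))

theorem near_neg {x : V Q n} {t : ℕ} (hx : Near x t) : Near (-x) t := by
  obtain ⟨v, hv, rfl⟩ := hx
  exact ⟨-v, fun i => by simpa using hv i, funext fun i => by simp [cs]⟩

theorem near_sub {x y : V Q n} {s t : ℕ} (hx : Near x s) (hy : Near y t) :
    Near (x - y) (s + t) := by
  rw [sub_eq_add_neg]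
  exact near_add hx (near_neg hy)

theorem near_smul {x : V Q n} {t : ℕ} (hx : Near x t) {z : ℤ} {j : ℕ} (hz : |z| ≤ j) :
    Near ((z : ZMod Q) • x) (j * t) := by
  obtain ⟨v, hv, rfl⟩ := hx
  refine ⟨fun i => z * v i, fun i => ?_, funext fun i => by simp [cs]⟩
  push_cast
  rw [abs_mul]
  exact mul_le_mul hz (hv i) (abs_nonneg _) (by positivity)

theorem near_sum {κ : Type*} (s : Finset κ) {x : κ → V Q n} {t : ℕ} (hx : ∀ j ∈ s, Near (x j) t) :
    Near (∑ j ∈ s, x j) (s.card * t) := by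
  classical
  induction s using Finset.induction_on with
  | empty => simpa using near_zero 0
  | insert a s ha ih =>
    rw [sum_insert ha, card_insert_of_notMem ha, add_mul, one_mul, add_comm (s.card * t)]
    exact near_add (hx a (mem_insert_self _ _)) (ih fun j hj => hx j (mem_insert_of_mem hj))

/-- differences of two points of a box -/
theorem near_sub_of_mem_bx {T : ℕ} {x y : V Q n} (hx : x ∈ bx Q n T) (hy : y ∈ bx Q n T) :
    Near (x - y) T := by
  obtain ⟨t, ht, rfl⟩ := mem_bx'.1 hx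
  obtain ⟨s, hs, rfl⟩ := mem_bx'.1 hy
  refine ⟨fun i => (t i : ℤ) - s i, fun i => ?_, funext fun i => by simp [cs]⟩
  have h1 := ht i
  have h2 := hs i
  show |(t i : ℤ) - s i| ≤ T
  rw [abs_le]
  constructor <;> omega

theorem eq_sum_single {n' : ℕ} (a : Fin n' → ℤ) :
    (cs Q a : V Q n') = ∑ m, ((a m : ℤ) : ZMod Q) • (Pi.single m 1 : V Q n') := by
  funext i
  simp [cs, Finset.sum_apply, Pi.single_apply]

/-- images of small vectors under maps with small columns -/
theorem near_map {n' T0 t : ℕ} {P : V Q n' →ₗ[ZMod Q] V Q n} (hP : SmallMap P T0) {a : V Q n'}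
    (ha : Near a t) : Near (P a) (n' * (t * T0)) := by
  obtain ⟨v, hv, rfl⟩ := ha
  rw [eq_sum_single, map_sum]
  have h := near_sum (univ : Finset (Fin n'))
    (x := fun m => P (((v m : ℤ) : ZMod Q) • (Pi.single m 1 : V Q n'))) (t := t * T0)
    (fun m _ => by rw [map_smul]; exact near_smul (hP m) (hv m))
  simpa using h

/-- a linear form that is small on the basis is small on small vectors -/
theorem nm_lin_le {n' t : ℕ} (θ : V Q n' →ₗ[ZMod Q] ZMod Q) {τ : ℝ}
    (hθ : ∀ m, nm (θ (Pi.single m 1)) ≤ τ) {a : V Q n'} (ha : Near a t) :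
    nm (θ a) ≤ n' * (t * τ) := by
  obtain ⟨v, hv, rfl⟩ := ha
  rw [eq_sum_single, map_sum]
  refine (nm_sum_le _ _).trans ?_
  have h : ∀ m ∈ (univ : Finset (Fin n')),
      nm (θ (((v m : ℤ) : ZMod Q) • (Pi.single m 1 : V Q n'))) ≤ t * τ := by
    intro m _
    rw [map_smul, smul_eq_mul]
    refine (nm_int_mul_le _ _).trans ?_
    have h1 : |((v m : ℤ) : ℝ)| ≤ t := by exact_mod_cast hv m
    exact mul_le_mul h1 (hθ m) (nm_nonneg _) (by positivity)
  have := sum_le_card_nsmul _ _ _ h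
  simpa using this

theorem nm_dot_le {n' t : ℕ} (θ : V Q n) (P : V Q n' →ₗ[ZMod Q] V Q n) {τ : ℝ}
    (hθ : ∀ m, nm (θ ⬝ᵥ P (Pi.single m 1)) ≤ τ) {a : V Q n'} (ha : Near a t) :
    nm (θ ⬝ᵥ P a) ≤ n' * (t * τ) := by
  let L : V Q n' →ₗ[ZMod Q] ZMod Q :=
    { toFun := fun a => θ ⬝ᵥ P a
      map_add' := fun a b => by rw [map_add, dotProduct_add]
      map_smul' := fun c a => by rw [map_smul, dotProduct_smul]; rfl }
  exact nm_lin_le L hθ ha

/-! ### almost invariance -/

theorem card_seg_bad (T : ℕ) (w : ℤ) {t : ℕ} (hw : |w| ≤ t) :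
    (((range T).image (Nat.cast : ℕ → ZMod Q)).filter
      fun a => a + (w : ZMod Q) ∉ (range T).image (Nat.cast : ℕ → ZMod Q)).card ≤ t := by
  have hsub : ((range T).image (Nat.cast : ℕ → ZMod Q)).filter
      (fun a => a + (w : ZMod Q) ∉ (range T).image (Nat.cast : ℕ → ZMod Q)) ⊆
      (if 0 ≤ w then Ico (T - t) T else range t).image (Nat.cast : ℕ → ZMod Q) := by
    intro a ha
    obtain ⟨h1, h2⟩ := mem_filter.1 ha
    obtain ⟨s, hs, rfl⟩ := mem_image.1 h1
    refine mem_image.2 ⟨s, ?_, rfl⟩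
    have hs' := mem_range.1 hs
    have hw' := abs_le.1 hw
    by_contra hcon
    apply h2
    have h3 : 0 ≤ (s : ℤ) + w ∧ (s : ℤ) + w < T := by
      split_ifs at hcon with h
      · rw [mem_Ico] at hcon
        omega
      · rw [mem_range] at hcon
        omega
    refine mem_image.2 ⟨((s : ℤ) + w).toNat, mem_range.2 (by omega), ?_⟩
    have h4 : ((((s : ℤ) + w).toNat : ℤ) : ZMod Q) = (((s : ℤ) + w : ℤ) : ZMod Q) := by
      rw [Int.toNat_of_nonneg h3.1]
    rw [Int.cast_natCast, Int.cast_add, Int.cast_natCast] at h4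
    exact h4
  refine (card_le_card hsub).trans (card_image_le.trans ?_)
  split_ifs
  · rw [Nat.card_Ico]
    omega
  · rw [card_range]

/-- few points leave the box under a small translation -/
theorem card_bx_bad {T t : ℕ} (hT : T ≤ Q) {v : V Q n} (hv : Near v t) :
    ((bx Q n T).filter fun x => x + v ∉ bx Q n T).card * T ≤ n * t * T ^ n := by
  obtain ⟨w, hw, rfl⟩ := hv
  set S : Finset (ZMod Q) := (range T).image (Nat.cast : ℕ → ZMod Q) with hS
  let Bad : Fin n → Finset (ZMod Q) := fun i => S.filter fun a => a + (w i : ZMod Q) ∉ S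
  have hsub : (bx Q n T).filter (fun x => x + cs Q w ∉ bx Q n T) ⊆
      univ.biUnion fun i => Fintype.piFinset (Function.update (fun _ => S) i (Bad i)) := by
    intro x hx
    obtain ⟨h1, h2⟩ := mem_filter.1 hx
    rw [bx, Fintype.mem_piFinset] at h1 h2
    obtain ⟨i, hi⟩ := not_forall.1 h2
    refine mem_biUnion.2 ⟨i, mem_univ _, Fintype.mem_piFinset.2 fun j => ?_⟩
    by_cases hj : j = i
    · subst hj
      rw [Function.update_self]
      exact mem_filter.2 ⟨h1 j, hi⟩
    · rw [Function.update_of_ne hj]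
      exact h1 j
  have hone : ∀ i, (Fintype.piFinset (Function.update (fun _ => S) i (Bad i))).card * T ≤
      t * T ^ n := by
    intro i
    rw [Fintype.card_piFinset]
    have h1 : ∏ j, (Function.update (fun _ => S) i (Bad i) j).card =
        (Bad i).card * T ^ (n - 1) := by
      rw [← Finset.mul_prod_erase univ _ (mem_univ i), Function.update_self]
      congr 1
      rw [Finset.prod_congr rfl (g := fun _ => T) fun j hj => by
        rw [Function.update_of_ne (ne_of_mem_erase hj), hS, card_seg hT]]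
      simp
    have h2 : T ^ (n - 1) * T = T ^ n := by
      have := i.pos
      rw [← pow_succ]
      congr 1
      omega
    rw [h1, mul_assoc, h2]
    exact Nat.mul_le_mul_right _ (card_seg_bad T (w i) (hw i))
  calc _ ≤ (∑ i, (Fintype.piFinset (Function.update (fun _ => S) i (Bad i))).card) * T :=
        Nat.mul_le_mul_right _ ((card_le_card hsub).trans card_biUnion_le)
    _ = ∑ i, (Fintype.piFinset (Function.update (fun _ => S) i (Bad i))).card * T := by
        rw [sum_mul]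
    _ ≤ ∑ _i : Fin n, t * T ^ n := sum_le_sum fun i _ => hone i
    _ = n * t * T ^ n := by simp [mul_assoc]

/-- FOL: averages over a box are almost invariant under small translations -/
theorem fol {𝕜 : Type*} [RCLike 𝕜] {T t : ℕ} (hT1 : 1 ≤ T) (hT : T ≤ Q) {v : V Q n}
    (hv : Near v t) (g : V Q n → 𝕜) {M : ℝ} (hg : ∀ x, ‖g x‖ ≤ M) :
    ‖(𝔼 x ∈ bx Q n T, g (x + v)) - 𝔼 x ∈ bx Q n T, g x‖ ≤ 2 * n * t / T * M := by
  set B := bx Q n T with hB
  set B' := B.image (· + v) with hB'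
  have hM : 0 ≤ M := (norm_nonneg _).trans (hg 0)
  have hinj : Set.InjOn (· + v) (B : Set (V Q n)) := fun _ _ _ _ h => add_right_cancel h
  have hc : B'.card = B.card := card_image_of_injOn hinj
  have h1 : ∑ x ∈ B, g (x + v) = ∑ y ∈ B', g y := by rw [hB', sum_image hinj]
  have h2 : (B' \ B).card = (B.filter fun x => x + v ∉ B).card := by
    have : B' \ B = (B.filter fun x => x + v ∉ B).image (· + v) := by
      ext y
      simp only [hB', mem_sdiff, mem_image, mem_filter]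
      constructor
      · rintro ⟨⟨x, hx, rfl⟩, h⟩
        exact ⟨x, ⟨hx, h⟩, rfl⟩
      · rintro ⟨x, ⟨hx, h⟩, rfl⟩
        exact ⟨⟨x, hx, rfl⟩, h⟩
    rw [this, card_image_of_injective _ (add_left_injective v)]
  have h3 : (B \ B').card = (B' \ B).card := card_sdiff_comm hc.symm
  have hbd : ∀ s : Finset (V Q n), ‖∑ y ∈ s, g y‖ ≤ s.card * M := fun s =>
    (norm_sum_le _ _).trans (by simpa using sum_le_card_nsmul s (fun y => ‖g y‖) M fun y _ => hg y)
  have h4 : ‖∑ y ∈ B', g y - ∑ y ∈ B, g y‖ ≤ 2 * ((B' \ B).card * M) := by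
    rw [← sum_sdiff_sub_sum_sdiff]
    refine (norm_sub_le _ _).trans ?_
    have := hbd (B \ B')
    rw [h3] at this
    linarith [hbd (B' \ B)]
  have h5 : ((B' \ B).card : ℝ) * T ≤ n * t * B.card := by
    rw [h2, hB, card_bx hT]
    exact_mod_cast card_bx_bad hT hv
  have hT0 : (0 : ℝ) < T := by exact_mod_cast hT1
  have hB0 : (0 : ℝ) < B.card := by exact_mod_cast (bx_nonempty hT1).card_pos
  rw [expect_eq_sum_div_card, expect_eq_sum_div_card, h1, ← sub_div, norm_div, RCLike.norm_natCast,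
    div_le_iff₀ hB0]
  refine h4.trans ?_
  have h6 : ((B' \ B).card : ℝ) ≤ n * t / T * B.card := by
    rw [div_mul_eq_mul_div, le_div_iff₀ hT0]
    exact h5
  calc 2 * (((B' \ B).card : ℝ) * M) ≤ 2 * ((n * t / T * B.card) * M) := by gcongr
    _ = 2 * n * t / T * M * B.card := by ring

/-- FOL for real functions -/
theorem fol_real {T t : ℕ} (hT1 : 1 ≤ T) (hT : T ≤ Q) {v : V Q n}
    (hv : Near v t) (g : V Q n → ℝ) {M : ℝ} (hg : ∀ x, |g x| ≤ M) :
    |(𝔼 x ∈ bx Q n T, g (x + v)) - 𝔼 x ∈ bx Q n T, g x| ≤ 2 * n * t / T * M :=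
  fol (𝕜 := ℝ) hT1 hT hv g hg

/-- FOL averaged over a family of small translations -/
theorem fol_avg {𝕜 : Type*} [RCLike 𝕜] {κ : Type*} {s : Finset κ} (hs : s.Nonempty) {T t : ℕ}
    (hT1 : 1 ≤ T) (hT : T ≤ Q) {v : κ → V Q n} (hv : ∀ j ∈ s, Near (v j) t) (g : V Q n → 𝕜)
    {M : ℝ} (hg : ∀ x, ‖g x‖ ≤ M) :
    ‖(𝔼 x ∈ bx Q n T, 𝔼 j ∈ s, g (x + v j)) - 𝔼 x ∈ bx Q n T, g x‖ ≤ 2 * n * t / T * M := by
  rw [expect_comm, ← expect_const hs (𝔼 x ∈ bx Q n T, g x), ← expect_sub_distrib]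
  exact (RCLike.norm_expect_le (K := 𝕜)).trans (expect_le hs fun j hj => fol hT1 hT (hv j hj) g hg)

end Vale.Agent.P057Z.Ke
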