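import Vale.Agent.P057Z.Defs
import Mathlib.LinearAlgebra.Matrix.AbsoluteValue
import Mathlib.LinearAlgebra.Matrix.Rank
import Mathlib.LinearAlgebra.Matrix.NonsingularInverse

/-!
P057 (block Ke): Cramer's rule for small integer vectors that are independent modulo a prime.
-/

namespace Vale.Agent.P057Z.Ke

open Finset

/-- independent rows have a nonsingular square selection of columns -/
theorem exists_cols {F : Type*} [Field F] {I : Type*} [Fintype I] {j : ℕ}
    (A : Matrix (Fin j) I F) (h : LinearIndependent F A.row) :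
    ∃ s : Fin j → I, Function.Injective s ∧ (A.submatrix id s).det ≠ 0 := by
  classical
  obtain ⟨κ, a, ha, hsp, hli⟩ := exists_linearIndependent' F A.col
  have : Finite κ := Finite.of_injective a ha
  have : Fintype κ := Fintype.ofFinite κ
  have h1 : A.rank = j := by simpa using h.rank_matrix
  have h2 : Fintype.card κ = j := by
    have h3 := linearIndependent_iff_card_eq_finrank_span.mp hli
    rw [h3, Set.finrank, hsp, ← Matrix.rank_eq_finrank_span_cols, h1]
  let e : Fin j ≃ κ := (Fintype.equivFinOfCardEq h2).symm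
  refine ⟨a ∘ e, ha.comp e.injective, ?_⟩
  have h4 : LinearIndependent F (A.submatrix id (a ∘ e)).col := by
    have h5 := hli.comp e e.injective
    exact h5
  have h6 := Matrix.linearIndependent_cols_iff_isUnit.mp h4
  exact ((Matrix.isUnit_iff_isUnit_det _).mp h6).ne_zero

/-- CR: small integer vectors independent modulo `Q` have a small integer dual family. -/
theorem cramer {Q : ℕ} [Fact Q.Prime] {I : Type*} [Fintype I] {j : ℕ} (k : Fin j → I → ℤ)
    {K0 : ℕ} (hK : 1 ≤ K0) (hk : ∀ a i, |k a i| ≤ K0)
    (hli : LinearIndependent (ZMod Q) (fun a i => ((k a i : ℤ) : ZMod Q))) :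
    ∃ (D : ℤ) (W : Fin j → I → ℤ), ((D : ℤ) : ZMod Q) ≠ 0 ∧
      |D| ≤ ((j.factorial * K0 ^ j : ℕ) : ℤ) ∧
      (∀ l i, |W l i| ≤ ((j.factorial * K0 ^ j : ℕ) : ℤ)) ∧
      ∀ a l, ∑ i, k a i * W l i = if a = l then D else 0 := by
  classical
  let A : Matrix (Fin j) I (ZMod Q) := Matrix.of fun a i => ((k a i : ℤ) : ZMod Q)
  obtain ⟨s, hs, hdet⟩ := exists_cols A hli
  let M : Matrix (Fin j) (Fin j) ℤ := Matrix.of fun a b => k a (s b)
  have hM : ∀ a b, |M a b| ≤ (K0 : ℤ) := fun a b => hk a (s b)
  have hbd : ∀ N : Matrix (Fin j) (Fin j) ℤ, (∀ a b, |N a b| ≤ (K0 : ℤ)) →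
      |N.det| ≤ ((j.factorial * K0 ^ j : ℕ) : ℤ) := by
    intro N hN
    have h := Matrix.det_le (A := N) (abv := AbsoluteValue.abs) (x := (K0 : ℤ)) hN
    simpa using h
  refine ⟨M.det, fun l i => ∑ b, if s b = i then M.adjugate b l else 0, ?_, hbd M hM, ?_, ?_⟩
  · have h1 : ((M.det : ℤ) : ZMod Q) = (A.submatrix id s).det := by
      have h2 := RingHom.map_det (Int.castRingHom (ZMod Q)) M
      rw [eq_intCast] at h2
      rw [h2]
      rfl
    rw [h1]
    exact hdet
  · intro l i
    have hadj : ∀ b, |M.adjugate b l| ≤ ((j.factorial * K0 ^ j : ℕ) : ℤ) := by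
      intro b
      rw [Matrix.adjugate_apply]
      refine hbd _ fun a c => ?_
      rw [Matrix.updateRow_apply]
      split_ifs with h
      · rw [Pi.single_apply]
        split_ifs
        · rw [abs_one]
          exact_mod_cast hK
        · rw [abs_zero]
          positivity
      · exact hM a c
    show |∑ b, if s b = i then M.adjugate b l else 0| ≤ _
    by_cases hi : ∃ b, s b = i
    · obtain ⟨b, rfl⟩ := hi
      rw [Finset.sum_eq_single b (fun c _ hc => if_neg fun h => hc (hs h))
        (fun h => (h (Finset.mem_univ _)).elim), if_pos rfl]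
      exact hadj b
    · rw [Finset.sum_eq_zero fun b _ => if_neg fun h => hi ⟨b, h⟩, abs_zero]
      positivity
  · intro a l
    have h1 : ∑ i, k a i * (∑ b, if s b = i then M.adjugate b l else 0) =
        ∑ b, M a b * M.adjugate b l := by
      simp_rw [Finset.mul_sum]
      rw [Finset.sum_comm]
      refine Finset.sum_congr rfl fun b _ => ?_
      rw [Finset.sum_eq_single (s b) (fun i _ hi => by rw [if_neg (Ne.symm hi), mul_zero])
        (fun h => (h (Finset.mem_univ _)).elim), if_pos rfl]
      rfl
    rw [h1, ← Matrix.mul_apply, Matrix.mul_adjugate, Matrix.smul_apply, Matrix.one_apply]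
    split_ifs <;> simp

end Vale.Agent.P057Z.Ke
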