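import Vale.Agent.P057Z.Ke.Pop

/-!
P057 (block Ke): equidistribution against products (EQ).
-/

set_option linter.unusedSectionVars false

open Finset
open scoped BigOperators

noncomputable section

namespace Vale.Agent.P057Z.Ke

open Vale.Agent.P057Z

variable {Q : ℕ} [Fact Q.Prime] {n : ℕ} {ι : Type} [Fintype ι] [DecidableEq ι]

theorem norm_expect₂_le {α β : Type*} {s : Finset α} {t : Finset β} (hs : s.Nonempty)
    (ht : t.Nonempty) {f : α → β → ℂ} {M : ℝ} (h : ∀ x y, ‖f x y‖ ≤ M) :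
    ‖𝔼 x ∈ s, 𝔼 y ∈ t, f x y‖ ≤ M :=
  norm_expect_le' hs fun x _ => norm_expect_le' ht fun y _ => h x y

/-- splitting a double average into a finite sum of double averages and an error -/
theorem norm_expect₂_sum_le {α β γ : Type*} {s : Finset α} {t : Finset β} (hs : s.Nonempty)
    (ht : t.Nonempty) (F : Finset γ) (c : γ → ℂ) {f e : α → β → ℂ} {g : γ → α → β → ℂ}
    {M δ η : ℝ} (hf : ∀ x y, f x y = ∑ k ∈ F, c k * g k x y + e x y) (he : ∀ x y, ‖e x y‖ ≤ η)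
    (hM : ∑ k ∈ F, ‖c k‖ ≤ M) (hδ : 0 ≤ δ)
    (hg : ∀ k ∈ F, c k ≠ 0 → ‖𝔼 x ∈ s, 𝔼 y ∈ t, g k x y‖ ≤ δ) :
    ‖𝔼 x ∈ s, 𝔼 y ∈ t, f x y‖ ≤ M * δ + η := by
  have h1 : 𝔼 x ∈ s, 𝔼 y ∈ t, f x y =
      ∑ k ∈ F, c k * (𝔼 x ∈ s, 𝔼 y ∈ t, g k x y) + 𝔼 x ∈ s, 𝔼 y ∈ t, e x y := by
    simp_rw [hf, expect_add_distrib, expect_sum_comm, mul_expect]
  rw [h1]
  refine (norm_add_le _ _).trans (add_le_add ?_ (norm_expect₂_le hs ht he))
  refine (norm_sum_le _ _).trans ?_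
  calc ∑ k ∈ F, ‖c k * (𝔼 x ∈ s, 𝔼 y ∈ t, g k x y)‖ ≤ ∑ k ∈ F, ‖c k‖ * δ := by
        refine sum_le_sum fun k hk => ?_
        rw [norm_mul]
        by_cases h : c k = 0
        · simp [h]
        · exact mul_le_mul_of_nonneg_left (hg k hk h) (norm_nonneg _)
    _ = (∑ k ∈ F, ‖c k‖) * δ := (sum_mul _ _ _).symm
    _ ≤ M * δ := mul_le_mul_of_nonneg_right hM hδ

theorem cs_zsmul (j : ℤ) (k : ι → ℤ) : cs Q (j • k) = (j : ZMod Q) • cs Q k := by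
  funext i
  simp [cs]

theorem zsmul_mem_Sm {K0 K1 : ℕ} {j : ℤ} {k : ι → ℤ} (hk : k ∈ Sm ι K0)
    (hj : j.natAbs * K0 ≤ K1) : j • k ∈ Sm ι K1 := by
  refine mem_Sm.2 fun i => ?_
  have h1 := mem_Sm.1 hk i
  have h2 : ((j.natAbs * K0 : ℕ) : ℤ) ≤ K1 := by exact_mod_cast hj
  rw [Pi.smul_apply, smul_eq_mul, abs_mul]
  refine le_trans ?_ h2
  push_cast
  exact mul_le_mul_of_nonneg_left h1 (abs_nonneg j)

theorem norm_mul_ch_le {z : ℂ} (hz : ‖z‖ ≤ 1) (u : ZMod Q) : ‖z * ch u‖ ≤ 1 := by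
  rwa [norm_mul, norm_ch, mul_one]

/-- EQ for complex weights -/
theorem eq_core {B : Bil Q n ι} {K : Submodule (ZMod Q) (ι → ZMod Q)} {K0 K1 Tlo Thi T1 T2 : ℕ}
    {δ M η : ℝ} {j : ℤ} {Φ : (ι → ZMod Q) → ℝ} (a b : V Q n → ι → ZMod Q) {u v : V Q n → ℂ}
    (hR : Reg B K K1 δ Tlo Thi) (hδ : 0 ≤ δ) (hB : ∀ x y, B x y ∈ perp K)
    (hj : (j : ZMod Q) ≠ 0) (hK : j.natAbs * K0 ≤ K1) (h0 : 1 ≤ Tlo) (h1 : Tlo ≤ T1)
    (h1' : T1 ≤ Thi) (h2 : Tlo ≤ T2) (h2' : T2 ≤ Thi) (hΦ : FA Φ K0 M η)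
    (hu : ∀ x, ‖u x‖ ≤ 1) (hv : ∀ y, ‖v y‖ ≤ 1) :
    ‖𝔼 x ∈ bx Q n T1, 𝔼 y ∈ bx Q n T2, u x * v y *
      ((Φ (j • B x y + a x + b y) : ℂ) - (avg K Φ (a x + b y) : ℂ))‖ ≤ M * δ + 2 * η := by
  classical
  obtain ⟨c, hc, hη⟩ := hΦ
  have hd : ∀ (k : ι → ℤ) x y, cs Q k ⬝ᵥ (j • B x y) = cs Q (j • k) ⬝ᵥ B x y := by
    intro k x y
    rw [cs_zsmul, smul_dotProduct, ← Int.cast_smul_eq_zsmul (ZMod Q), dotProduct_smul]
  refine norm_expect₂_sum_le (bx_nonempty (h0.trans h1)) (bx_nonempty (h0.trans h2)) (Sm ι K0)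
    (fun k => if cs Q k ∈ K then 0 else c k)
    (g := fun k x y => (u x * ch (cs Q k ⬝ᵥ a x)) * (v y * ch (cs Q k ⬝ᵥ b y)) *
      ch (cs Q (j • k) ⬝ᵥ B x y))
    (e := fun x y => u x * v y * (((Φ (j • B x y + a x + b y) : ℂ) -
      ∑ k ∈ Sm ι K0, c k * ch (cs Q k ⬝ᵥ (j • B x y + a x + b y))) -
      ((avg K Φ (a x + b y) : ℂ) - ∑ k ∈ Sm ι K0,
        (if cs Q k ∈ K then c k else 0) * ch (cs Q k ⬝ᵥ (a x + b y)))))
    (fun x y => ?_) (fun x y => ?_) ?_ hδ fun k hk hk0 => ?_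
  · have h3 : ∑ k ∈ Sm ι K0, (if cs Q k ∈ K then 0 else c k) *
        ((u x * ch (cs Q k ⬝ᵥ a x)) * (v y * ch (cs Q k ⬝ᵥ b y)) * ch (cs Q (j • k) ⬝ᵥ B x y)) =
        u x * v y * (∑ k ∈ Sm ι K0, c k * ch (cs Q k ⬝ᵥ (j • B x y + a x + b y)) -
          ∑ k ∈ Sm ι K0, (if cs Q k ∈ K then c k else 0) * ch (cs Q k ⬝ᵥ (a x + b y))) := by
      rw [← sum_sub_distrib, mul_sum]
      refine sum_congr rfl fun k _ => ?_
      simp only [dotProduct_add, ch_add, hd]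
      split_ifs with hk
      · have h4 : cs Q (j • k) ⬝ᵥ B x y = 0 := by
          refine mem_perp.1 (hB x y) _ ?_
          rw [cs_zsmul]
          exact K.smul_mem _ hk
        rw [h4, ch_zero]
        ring
      · ring
    rw [h3]
    ring
  · rw [norm_mul, norm_mul]
    have h3 := (norm_sub_le _ _).trans (add_le_add (hη (j • B x y + a x + b y))
      (avg_fa (K := K) hη (a x + b y)))
    calc _ ≤ 1 * 1 * (η + η) := by
          gcongr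
          · exact hu x
          · exact hv y
      _ = 2 * η := by ring
  · refine le_trans (sum_le_sum fun k _ => ?_) hc
    split_ifs <;> simp
  · have hk1 : cs Q k ∉ K := fun h => hk0 (if_pos h)
    refine hR (j • k) (zsmul_mem_Sm hk hK) ?_ T1 T2 h1 h1' h2 h2' _ _
      (fun x => norm_mul_ch_le (hu x) _) (fun y => norm_mul_ch_le (hv y) _)
    rw [cs_zsmul, K.smul_mem_iff hj]
    exact hk1

theorem abs_avg_le {K : Submodule (ZMod Q) (ι → ZMod Q)} {Φ : (ι → ZMod Q) → ℝ} {S : ℝ}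
    (h : ∀ z, |Φ z| ≤ S) (z : ι → ZMod Q) : |avg K Φ z| ≤ S :=
  abs_le.2 ⟨le_expect (perp_nonempty K) fun _ _ => (abs_le.1 (h _)).1,
    expect_le (perp_nonempty K) fun _ _ => (abs_le.1 (h _)).2⟩

theorem eq_ : EQ := by
  intro Q _ n ι κ _ _ _ _ B K K0 K0' K1 Tlo Thi T1 T2 δ M η M' η' S j Φ Φ' a b a' b' u v hR hδ hB
    hj hK h0 h1 h1' h2 h2' hΦ hΦ' hS hu hv
  have hu' : ∀ x, ‖(u x : ℂ)‖ ≤ 1 := fun x => by
    rw [Complex.norm_real]
    exact hu x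
  have hv' : ∀ x, ‖(v x : ℂ)‖ ≤ 1 := fun x => by
    rw [Complex.norm_real]
    exact hv x
  have hc := eq_core a b hR hδ hB hj hK h0 h1 h1' h2 h2' hΦ hu' hv'
  constructor
  · rw [← Real.norm_eq_abs, ← Complex.norm_real]
    simp_rw [ofReal_expect']
    push_cast
    exact hc
  · obtain ⟨c, hc1, hc2⟩ := hΦ'
    rw [← Real.norm_eq_abs, ← Complex.norm_real]
    simp_rw [ofReal_expect']
    push_cast
    refine norm_expect₂_sum_le (bx_nonempty (h0.trans h1)) (bx_nonempty (h0.trans h2)) (Sm κ K0') c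
      (g := fun k x y => (u x * ch (cs Q k ⬝ᵥ a' x)) * (v y * ch (cs Q k ⬝ᵥ b' y)) *
        ((Φ (j • B x y + a x + b y) : ℂ) - (avg K Φ (a x + b y) : ℂ)))
      (e := fun x y => u x * v y *
        ((Φ (j • B x y + a x + b y) : ℂ) - (avg K Φ (a x + b y) : ℂ)) *
        ((Φ' (a' x + b' y) : ℂ) - ∑ k ∈ Sm κ K0', c k * ch (cs Q k ⬝ᵥ (a' x + b' y))))
      (fun x y => ?_) (fun x y => ?_) hc1 ((norm_nonneg _).trans hc) fun k _ _ =>
        eq_core a b hR hδ hB hj hK h0 h1 h1' h2 h2' hΦ (fun x => norm_mul_ch_le (hu' x) _)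
          (fun y => norm_mul_ch_le (hv' y) _)
    · have h3 : ∑ k ∈ Sm κ K0', c k * ((u x * ch (cs Q k ⬝ᵥ a' x)) * (v y * ch (cs Q k ⬝ᵥ b' y)) *
          ((Φ (j • B x y + a x + b y) : ℂ) - (avg K Φ (a x + b y) : ℂ))) =
          u x * v y * ((Φ (j • B x y + a x + b y) : ℂ) - (avg K Φ (a x + b y) : ℂ)) *
            ∑ k ∈ Sm κ K0', c k * ch (cs Q k ⬝ᵥ (a' x + b' y)) := by
        rw [mul_sum]
        refine sum_congr rfl fun k _ => ?_
        simp only [dotProduct_add, ch_add]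
        ring
      rw [h3]
      ring
    · have hS0 : 0 ≤ S := (abs_nonneg _).trans (hS 0)
      have h3 : ‖(Φ (j • B x y + a x + b y) : ℂ) - (avg K Φ (a x + b y) : ℂ)‖ ≤ S + S := by
        refine (norm_sub_le _ _).trans (add_le_add ?_ ?_)
        · rw [Complex.norm_real]
          exact hS _
        · rw [Complex.norm_real]
          exact abs_avg_le hS _
      rw [norm_mul, norm_mul, norm_mul]
      calc _ ≤ 1 * 1 * (S + S) * η' := by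
            gcongr
            · exact hu' x
            · exact hv' y
            · exact hc2 _
        _ = 2 * S * η' := by ring

end Vale.Agent.P057Z.Ke
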