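import Vale.Agent.P057Z.Ke.Fol
import Vale.Agent.P057Z.Ke.Cr
import Vale.Agent.P057Z.Sk

/-!
P057 (block Ke): a subspace with small basis on which given frequencies are small (KILL); the
statements FOL, CR, KILL of the skeleton.
-/

set_option linter.unusedSectionVars false

open Finset
open scoped BigOperators

noncomputable section

namespace Vale.Agent.P057Z.Ke

open Vale.Agent.P057Z

variable {Q : ℕ} [Fact Q.Prime] {n : ℕ}

/-- the cell of side `1 / R` of a point of the circle -/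
def cell (R : ℕ) (u : ZMod Q) : ℕ := u.val * R / Q

theorem cell_lt {R : ℕ} (hR : 1 ≤ R) (u : ZMod Q) : cell R u < R := by
  unfold cell
  have hQ : 0 < Q := (Fact.out : Q.Prime).pos
  rw [Nat.div_lt_iff_lt_mul hQ, mul_comm R Q]
  exact Nat.mul_lt_mul_of_pos_right (ZMod.val_lt u) hR

theorem nm_le_of_cell {R : ℕ} (hR : 1 ≤ R) {u v : ZMod Q} (h : cell R u = cell R v) :
    nm (u - v) ≤ 1 / (R : ℝ) := by
  have hQ : 0 < Q := (Fact.out : Q.Prime).pos
  have h1 : u - v = (((u.val : ℤ) - v.val : ℤ) : ZMod Q) := by simp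
  rw [h1]
  refine (nm_cast_le _).trans ?_
  have hR0 : (0 : ℝ) < R := by exact_mod_cast hR
  unfold cell at h
  have a1 := Nat.div_add_mod (u.val * R) Q
  have a2 := Nat.div_add_mod (v.val * R) Q
  have a3 := Nat.mod_lt (u.val * R) hQ
  have a4 := Nat.mod_lt (v.val * R) hQ
  rw [h] at a1
  have b1 : u.val * R ≤ v.val * R + Q := by omega
  have b2 : v.val * R ≤ u.val * R + Q := by omega
  have c1 : (u.val : ℝ) * R ≤ v.val * R + Q := by exact_mod_cast b1
  have c2 : (v.val : ℝ) * R ≤ u.val * R + Q := by exact_mod_cast b2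
  rw [div_le_div_iff₀ Qpos hR0, one_mul, ← abs_of_pos hR0, ← abs_mul, abs_le]
  push_cast
  constructor <;> nlinarith

/-- one small vector supported in a given set of coordinates -/
theorem kill_one {κ : Type} [Fintype κ] (θ : κ → V Q n) {b T0 R : ℕ} (hR : 1 ≤ R) (hT0 : T0 < Q)
    (hcount : R ^ Fintype.card κ < (T0 + 1) ^ (b + 1)) (S : Finset (Fin n)) (hS : b + 1 ≤ S.card) :
    ∃ p : Fin n → ℤ, (∀ i, |p i| ≤ T0) ∧ (∀ i, i ∉ S → p i = 0) ∧
      (∀ k, nm (θ k ⬝ᵥ cs Q p) ≤ 1 / (R : ℝ)) ∧ ∃ i ∈ S, (p i : ZMod Q) ≠ 0 := by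
  classical
  let A : Finset (Fin n → ℕ) := Fintype.piFinset fun i => if i ∈ S then range (T0 + 1) else {0}
  let C : Finset (κ → ℕ) := Fintype.piFinset fun _ => range R
  have hA : A.card = (T0 + 1) ^ S.card := by
    rw [Fintype.card_piFinset]
    have : ∀ i, (if i ∈ S then range (T0 + 1) else {0} : Finset ℕ).card =
        if i ∈ S then T0 + 1 else 1 := by
      intro i
      split_ifs <;> simp
    simp_rw [this]
    rw [prod_ite_mem, univ_inter, prod_const]
  have hC : C.card = R ^ Fintype.card κ := by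
    rw [Fintype.card_piFinset]
    simp
  have hlt : C.card < A.card := by
    rw [hA, hC]
    exact hcount.trans_le (Nat.pow_le_pow_right (by omega) hS)
  obtain ⟨x, hx, y, hy, hxy, hf⟩ := exists_ne_map_eq_of_card_lt_of_maps_to hlt
    (f := fun (x : Fin n → ℕ) k => cell R (θ k ⬝ᵥ fun i => (x i : ZMod Q)))
    (fun x _ => mem_coe.2 (Fintype.mem_piFinset.2 fun k => mem_range.2 (cell_lt hR _)))
  have hx' := Fintype.mem_piFinset.1 hx
  have hy' := Fintype.mem_piFinset.1 hy
  have hle : ∀ {z : Fin n → ℕ}, (∀ i, z i ∈ if i ∈ S then range (T0 + 1) else {0}) →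
      ∀ i, z i ≤ T0 ∧ (i ∉ S → z i = 0) := by
    intro z hz i
    have := hz i
    split_ifs at this with h
    · exact ⟨by have := mem_range.1 this; omega, fun h' => (h' h).elim⟩
    · have h1 := mem_singleton.1 this
      exact ⟨by omega, fun _ => h1⟩
  refine ⟨fun i => (x i : ℤ) - y i, fun i => ?_, fun i hi => ?_, fun k => ?_, ?_⟩
  · have h1 := (hle hx' i).1
    have h2 := (hle hy' i).1
    show |(x i : ℤ) - y i| ≤ T0
    rw [abs_le]
    constructor <;> omega
  · show (x i : ℤ) - y i = 0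
    rw [(hle hx' i).2 hi, (hle hy' i).2 hi, sub_self]
  · have h1 : (cs Q fun i => (x i : ℤ) - y i) =
        (fun i => (x i : ZMod Q)) - fun i => (y i : ZMod Q) := by
      funext i
      simp [cs]
    rw [h1, dotProduct_sub]
    exact nm_le_of_cell hR (congrFun hf k)
  · obtain ⟨i, hi⟩ := Function.ne_iff.1 hxy
    have hiS : i ∈ S := by
      by_contra h
      exact hi (by rw [(hle hx' i).2 h, (hle hy' i).2 h])
    refine ⟨i, hiS, fun h => hi ?_⟩
    have h1 : ((x i : ℕ) : ZMod Q) = (y i : ℕ) := by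
      have h2 : (((x i : ℤ) - y i : ℤ) : ZMod Q) = 0 := h
      push_cast at h2
      exact sub_eq_zero.1 h2
    exact cast_injOn (T := Q) le_rfl (mem_coe.2 (mem_range.2 ((hle hx' i).1.trans_lt hT0)))
      (mem_coe.2 (mem_range.2 ((hle hy' i).1.trans_lt hT0))) h1

/-- independent small vectors supported in a given set of coordinates -/
theorem kill_many {κ : Type} [Fintype κ] (θ : κ → V Q n) {b T0 R : ℕ} (hR : 1 ≤ R) (hT0 : T0 < Q)
    (hcount : R ^ Fintype.card κ < (T0 + 1) ^ (b + 1)) (s : ℕ) :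
    ∀ S : Finset (Fin n), b + s ≤ S.card → ∃ p : Fin s → Fin n → ℤ, (∀ m i, |p m i| ≤ T0) ∧
      (∀ m i, i ∉ S → p m i = 0) ∧ (∀ m k, nm (θ k ⬝ᵥ cs Q (p m)) ≤ 1 / (R : ℝ)) ∧
      LinearIndependent (ZMod Q) fun m => (cs Q (p m) : V Q n) := by
  induction s with
  | zero =>
    intro S _
    exact ⟨fun m => m.elim0, fun m => m.elim0, fun m => m.elim0, fun m => m.elim0,
      linearIndependent_empty_type⟩
  | succ s ih =>
    intro S hS
    obtain ⟨p0, h1, h2, h3, i, hiS, hi⟩ := kill_one θ hR hT0 hcount S (by omega)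
    obtain ⟨p, g1, g2, g3, g4⟩ := ih (S.erase i) (by rw [card_erase_of_mem hiS]; omega)
    refine ⟨Fin.cons p0 p, fun m => ?_, fun m => ?_, fun m => ?_, ?_⟩
    · refine Fin.cases ?_ (fun m => ?_) m
      · exact h1
      · exact g1 m
    · refine Fin.cases ?_ (fun m => ?_) m
      · exact h2
      · exact fun j hj => g2 m j fun h => hj (mem_of_mem_erase h)
    · refine Fin.cases ?_ (fun m => ?_) m
      · exact h3
      · exact g3 m
    · have e : (fun m => (cs Q ((Fin.cons p0 p : Fin (s + 1) → Fin n → ℤ) m) : V Q n)) =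
          Fin.cons (cs Q p0) fun m => (cs Q (p m) : V Q n) := by
        funext m
        refine Fin.cases rfl (fun m => rfl) m
      rw [e, linearIndependent_finCons]
      refine ⟨g4, fun h => hi ?_⟩
      have hle : Submodule.span (ZMod Q) (Set.range fun m => (cs Q (p m) : V Q n)) ≤
          LinearMap.ker (LinearMap.proj i) := by
        rw [Submodule.span_le]
        rintro _ ⟨m, rfl⟩
        show ((p m i : ℤ) : ZMod Q) = 0
        rw [g2 m i (notMem_erase i S), Int.cast_zero]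
      exact hle h

/-- KILL: an injective linear map of corank `b` with small columns on which the frequencies `θ k`
are small -/
theorem kill {κ : Type} [Fintype κ] (θ : κ → V Q n) {b T0 R n' : ℕ} (hR : 1 ≤ R) (hT0 : T0 < Q)
    (hcount : R ^ Fintype.card κ < (T0 + 1) ^ (b + 1)) (hn : b + n' ≤ n) :
    ∃ P : V Q n' →ₗ[ZMod Q] V Q n, Function.Injective P ∧ SmallMap P T0 ∧
      ∀ k m, nm (θ k ⬝ᵥ P (Pi.single m 1)) ≤ 1 / (R : ℝ) := by
  obtain ⟨p, h1, -, h3, h4⟩ := kill_many θ hR hT0 hcount n' univ (by simpa using hn)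
  let P : V Q n' →ₗ[ZMod Q] V Q n :=
    Fintype.linearCombination (ZMod Q) fun m => (cs Q (p m) : V Q n)
  have hP : ∀ m, P (Pi.single m 1) = cs Q (p m) := fun m => by
    simp [P, Fintype.linearCombination_apply_single]
  refine ⟨P, linearIndependent_iff_injective_fintypeLinearCombination.1 h4, fun m => ⟨p m, h1 m, hP m⟩, fun k m => ?_⟩
  rw [hP]
  exact h3 m k

theorem kill_ : KILL := by
  intro Q _ n J r T W Θ hΘ hJ hn hW hWT hTQ
  classical
  obtain ⟨T0, h1, h2⟩ : ∃ T0 : ℕ, T0 ^ J ≤ T ∧ T < (T0 + 1) ^ J := by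
    have hex : ∃ m, T < (m + 1) ^ J :=
      ⟨T, (Nat.lt_succ_self T).trans_le (Nat.le_self_pow (by omega) _)⟩
    refine ⟨Nat.find hex, ?_, Nat.find_spec hex⟩
    rcases h : Nat.find hex with _ | m
    · rw [zero_pow (by omega)]
      exact Nat.zero_le _
    · have := Nat.find_min hex (m := m) (by omega)
      omega
  have h3 : 1 ≤ T0 := by
    rcases Nat.eq_zero_or_pos T0 with h | h
    · rw [h, zero_add, one_pow] at h2
      omega
    · exact h
  have h4 : T0 ≤ T := (Nat.le_self_pow (by omega) _).trans h1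
  have hR : 1 ≤ W * T := Nat.mul_pos hW (by omega)
  have hcount : (W * T) ^ Fintype.card Θ < (T0 + 1) ^ (2 * J * r + 1) := by
    rw [Fintype.card_coe]
    calc (W * T) ^ Θ.card ≤ (W * T) ^ r := Nat.pow_le_pow_right hR hΘ
      _ ≤ ((T0 + 1) ^ J * (T0 + 1) ^ J) ^ r :=
          Nat.pow_le_pow_left (Nat.mul_le_mul (hWT.trans h2.le) h2.le) r
      _ = (T0 + 1) ^ (2 * J * r) := by ring
      _ < (T0 + 1) ^ (2 * J * r + 1) := Nat.pow_lt_pow_right (by omega) (by omega)
  obtain ⟨P, g1, g2, g3⟩ := kill (fun k : Θ => (k : V Q n)) (n' := n - 2 * J * r) hR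
    (h4.trans_lt hTQ) hcount (by omega)
  refine ⟨T0, P, h3, ?_, g1, g2, fun θ hθ m => ?_⟩
  · have hJ0 : (0 : ℝ) < J := by exact_mod_cast hJ
    rw [le_div_iff₀ hJ0, mul_comm, ← Real.log_pow]
    refine Real.log_le_log (by positivity) ?_
    exact_mod_cast h1
  · have := g3 ⟨θ, hθ⟩ m
    push_cast at this
    exact this

theorem fol_ : FOL := by
  intro Q _ n T t v S hT hTQ hv
  refine ⟨fun g hg => ?_, fun g hg => ?_⟩
  · refine (fol hT hTQ hv g hg).trans (le_of_eq ?_)
    ring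
  · refine (fol_real hT hTQ hv g hg).trans (le_of_eq ?_)
    ring

theorem mem_Sm {ι : Type} [Fintype ι] [DecidableEq ι] {K0 : ℕ} {k : ι → ℤ} :
    k ∈ Sm ι K0 ↔ ∀ i, |k i| ≤ K0 := by
  simp [Sm, Fintype.mem_piFinset, abs_le]

theorem cr : CR := by
  intro Q _ ι _ _ j K0 b hK hb hli
  obtain ⟨D, w, h1, h2, h3, h4⟩ := cramer (Q := Q) b hK (fun a => mem_Sm.1 (hb a)) hli
  exact ⟨D, w, h1, h2, fun i => mem_Sm.2 (h3 i), h4⟩

end Vale.Agent.P057Z.Ke
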