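import Vale.Agent.P057Z.Defs

/-!
P057 (block Ke): the distance to zero `nm`, the norm `l1` and the character `ch`.
-/

set_option linter.unusedSectionVars false

open Finset

noncomputable section

namespace Vale.Agent.P057Z.Ke

open Vale.Agent.P057Z

variable {Q : ℕ} [Fact Q.Prime]

theorem Qpos : (0 : ℝ) < Q := by
  have := NeZero.pos Q
  exact_mod_cast this

theorem nm_nonneg (u : ZMod Q) : 0 ≤ nm u := by
  unfold nm
  positivity

theorem nm_zero : nm (0 : ZMod Q) = 0 := by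
  simp [nm]

theorem nm_le_half (u : ZMod Q) : nm u ≤ 1 / 2 := by
  unfold nm
  have h := u.valMinAbs_mem_Ioc
  have h1 : (-(Q : ℝ)) < (u.valMinAbs : ℝ) * 2 := by exact_mod_cast h.1
  have h2 : (u.valMinAbs : ℝ) * 2 ≤ Q := by exact_mod_cast h.2
  rw [div_le_iff₀ Qpos, abs_le]
  constructor <;> linarith

/-- `nm` of the class of an integer is at most `|z| / Q` -/
theorem nm_cast_le (z : ℤ) : nm (z : ZMod Q) ≤ |(z : ℝ)| / Q := by
  unfold nm
  have h := ZMod.natAbs_min_of_le_div_two Q ((z : ZMod Q).valMinAbs) z (ZMod.coe_valMinAbs _)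
    (ZMod.natAbs_valMinAbs_le _)
  have h1 : |(z : ZMod Q).valMinAbs| ≤ |z| := by
    rw [Int.abs_eq_natAbs, Int.abs_eq_natAbs]
    exact_mod_cast h
  have h2 : |(((z : ZMod Q).valMinAbs : ℤ) : ℝ)| ≤ |(z : ℝ)| := by exact_mod_cast h1
  exact div_le_div_of_nonneg_right h2 Qpos.le

theorem nm_natCast_le (t : ℕ) : nm (t : ZMod Q) ≤ (t : ℝ) / Q := by
  have h := nm_cast_le (Q := Q) (t : ℤ)
  simpa using h

theorem nm_neg (u : ZMod Q) : nm (-u) = nm u := by
  unfold nm
  have h := ZMod.natAbs_valMinAbs_neg u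
  have h1 : |(-u).valMinAbs| = |u.valMinAbs| := by
    rw [Int.abs_eq_natAbs, Int.abs_eq_natAbs, h]
  have h2 : |(((-u).valMinAbs : ℤ) : ℝ)| = |((u.valMinAbs : ℤ) : ℝ)| := by exact_mod_cast h1
  rw [h2]

theorem nm_add_le (u v : ZMod Q) : nm (u + v) ≤ nm u + nm v := by
  have h := nm_cast_le (Q := Q) (u.valMinAbs + v.valMinAbs)
  rw [Int.cast_add, ZMod.coe_valMinAbs, ZMod.coe_valMinAbs] at h
  refine h.trans ?_
  unfold nm
  rw [← add_div, Int.cast_add]
  exact div_le_div_of_nonneg_right (abs_add_le _ _) Qpos.le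

theorem nm_sub_le (u v : ZMod Q) : nm (u - v) ≤ nm u + nm v := by
  rw [sub_eq_add_neg, ← nm_neg v]
  exact nm_add_le _ _

theorem nm_sub_comm (u v : ZMod Q) : nm (u - v) = nm (v - u) := by
  rw [← nm_neg, neg_sub]

theorem nm_int_mul_le (z : ℤ) (u : ZMod Q) : nm ((z : ZMod Q) * u) ≤ |(z : ℝ)| * nm u := by
  have h := nm_cast_le (Q := Q) (z * u.valMinAbs)
  rw [Int.cast_mul, ZMod.coe_valMinAbs] at h
  refine h.trans (le_of_eq ?_)
  unfold nm
  rw [Int.cast_mul, abs_mul, mul_div_assoc]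

theorem nm_nat_mul_le (t : ℕ) (u : ZMod Q) : nm ((t : ZMod Q) * u) ≤ (t : ℝ) * nm u := by
  have h := nm_int_mul_le (t : ℤ) u
  simpa using h

theorem nm_sum_le {ι : Type*} (s : Finset ι) (u : ι → ZMod Q) :
    nm (∑ i ∈ s, u i) ≤ ∑ i ∈ s, nm (u i) := by
  classical
  induction s using Finset.induction_on with
  | empty => simp [nm_zero]
  | insert a s ha ih =>
    rw [sum_insert ha, sum_insert ha]
    exact (nm_add_le _ _).trans (by linarith)

theorem nm_eq_zero {u : ZMod Q} : nm u = 0 ↔ u = 0 := by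
  unfold nm
  rw [div_eq_zero_iff, or_iff_left Qpos.ne', abs_eq_zero, Int.cast_eq_zero,
    ZMod.valMinAbs_eq_zero]

/-- every element is the class of an integer of size `Q * nm u` -/
theorem exists_int (u : ZMod Q) : ∃ z : ℤ, (z : ZMod Q) = u ∧ |(z : ℝ)| = Q * nm u := by
  refine ⟨u.valMinAbs, ZMod.coe_valMinAbs u, ?_⟩
  unfold nm
  rw [mul_div_cancel₀ _ Qpos.ne']

section l1

variable {I : Type} [Fintype I] [DecidableEq I]

theorem l1_nonneg (u : I → ZMod Q) : 0 ≤ l1 u := sum_nonneg fun _ _ => nm_nonneg _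

theorem l1_zero : l1 (0 : I → ZMod Q) = 0 := by
  simp [l1, nm_zero]

theorem l1_neg (u : I → ZMod Q) : l1 (-u) = l1 u := by
  simp [l1, nm_neg]

theorem l1_add_le (u v : I → ZMod Q) : l1 (u + v) ≤ l1 u + l1 v := by
  unfold l1
  rw [← sum_add_distrib]
  exact sum_le_sum fun i _ => nm_add_le _ _

theorem l1_sub_le (u v : I → ZMod Q) : l1 (u - v) ≤ l1 u + l1 v := by
  rw [sub_eq_add_neg, ← l1_neg v]
  exact l1_add_le _ _

theorem l1_int_smul_le (z : ℤ) (u : I → ZMod Q) :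
    l1 ((z : ZMod Q) • u) ≤ |(z : ℝ)| * l1 u := by
  unfold l1
  rw [mul_sum]
  exact sum_le_sum fun i _ => nm_int_mul_le z (u i)

theorem l1_sum_le {ι : Type*} (s : Finset ι) (u : ι → I → ZMod Q) :
    l1 (∑ j ∈ s, u j) ≤ ∑ j ∈ s, l1 (u j) := by
  classical
  induction s using Finset.induction_on with
  | empty => simp [l1_zero]
  | insert a s ha ih =>
    rw [sum_insert ha, sum_insert ha]
    exact (l1_add_le _ _).trans (by linarith)

theorem nm_le_l1 (u : I → ZMod Q) (i : I) : nm (u i) ≤ l1 u :=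
  single_le_sum (f := fun i => nm (u i)) (fun _ _ => nm_nonneg _) (mem_univ i)

theorem l1_le_card {u : I → ZMod Q} {s : ℝ} (h : ∀ i, nm (u i) ≤ s) :
    l1 u ≤ Fintype.card I * s := by
  unfold l1
  have := sum_le_card_nsmul univ (fun i => nm (u i)) s fun i _ => h i
  simpa using this

end l1

theorem ch_add (u v : ZMod Q) : ch (u + v) = ch u * ch v := AddChar.map_add_eq_mul _ _ _

theorem ch_zero : ch (0 : ZMod Q) = 1 := AddChar.map_zero_eq_one _

theorem ch_int (z : ℤ) : ch (z : ZMod Q) = Complex.exp (Complex.I * ((2 * Real.pi * z / Q : ℝ) : ℂ)) := by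
  unfold ch
  rw [ZMod.stdAddChar_coe]
  congr 1
  push_cast
  ring

theorem norm_ch (u : ZMod Q) : ‖ch u‖ = 1 := by
  unfold ch
  rw [ZMod.stdAddChar_apply]
  exact Circle.norm_coe _

theorem ch_neg (u : ZMod Q) : ch (-u) = (starRingEnd ℂ) (ch u) := by
  have h1 : ch (-u) * ch u = 1 := by rw [← ch_add, neg_add_cancel, ch_zero]
  have h2 : (starRingEnd ℂ) (ch u) * ch u = 1 := by
    rw [mul_comm, Complex.mul_conj, Complex.normSq_eq_norm_sq, norm_ch]
    simp
  have h3 : ch u ≠ 0 := by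
    intro h
    rw [h, mul_zero] at h1
    exact zero_ne_one h1
  exact mul_right_cancel₀ h3 (h1.trans h2.symm)

theorem ch_sum {ι : Type*} (s : Finset ι) (u : ι → ZMod Q) :
    ch (∑ i ∈ s, u i) = ∏ i ∈ s, ch (u i) := by
  classical
  induction s using Finset.induction_on with
  | empty => simp [ch_zero]
  | insert a s ha ih => rw [sum_insert ha, prod_insert ha, ch_add, ih]

theorem ch_nat_mul (t : ℕ) (u : ZMod Q) : ch ((t : ZMod Q) * u) = ch u ^ t := by
  induction t with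
  | zero => simp [ch_zero]
  | succ t ih => rw [Nat.cast_succ, add_mul, one_mul, ch_add, ih, pow_succ]

theorem norm_ch_sub_one (u : ZMod Q) : ‖ch u - 1‖ = 2 * |Real.sin (Real.pi * nm u)| := by
  obtain ⟨z, rfl, hz⟩ := exists_int u
  rw [ch_int, Complex.norm_exp_I_mul_ofReal_sub_one, Real.norm_eq_abs, abs_mul, abs_two]
  have h1 : nm (z : ZMod Q) = |(z : ℝ)| / Q := by
    rw [hz, mul_div_cancel_left₀ _ Qpos.ne']
  rw [h1]
  have h2 : 2 * Real.pi * (z : ℝ) / Q / 2 = Real.pi * ((z : ℝ) / Q) := by ring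
  rw [h2]
  rcases abs_cases (z : ℝ) with h | h
  · rw [h.1]
  · rw [h.1, neg_div, mul_neg, Real.sin_neg, abs_neg]

theorem norm_ch_sub_one_le (u : ZMod Q) : ‖ch u - 1‖ ≤ 2 * Real.pi * nm u := by
  rw [norm_ch_sub_one, mul_assoc]
  have h := Real.abs_sin_le_abs (x := Real.pi * nm u)
  rw [abs_of_nonneg (mul_nonneg Real.pi_pos.le (nm_nonneg u))] at h
  linarith

theorem le_norm_ch_sub_one (u : ZMod Q) : 4 * nm u ≤ ‖ch u - 1‖ := by
  rw [norm_ch_sub_one]
  have h0 := nm_nonneg u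
  have h1 := nm_le_half u
  have hp := Real.pi_pos
  have h2 : |Real.pi * nm u| ≤ Real.pi / 2 := by
    rw [abs_of_nonneg (by positivity)]
    nlinarith
  have h3 := Real.mul_abs_le_abs_sin h2
  rw [abs_of_nonneg (by positivity : 0 ≤ Real.pi * nm u)] at h3
  have h4 : 2 / Real.pi * (Real.pi * nm u) = 2 * nm u := by field_simp
  linarith

theorem norm_ch_sub_ch_le (u v : ZMod Q) : ‖ch u - ch v‖ ≤ 2 * Real.pi * nm (u - v) := by
  have h : ch u - ch v = (ch (u - v) - 1) * ch v := by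
    rw [sub_mul, ← ch_add, sub_add_cancel, one_mul]
  rw [h, norm_mul, norm_ch, mul_one]
  exact norm_ch_sub_one_le _

/-- geometric sums -/
theorem geom_le (T : ℕ) (u : ZMod Q) : 2 * nm u * ‖∑ t ∈ range T, ch ((t : ZMod Q) * u)‖ ≤ 1 := by
  simp_rw [ch_nat_mul]
  have h1 := geom_sum_mul (ch u) T
  have h2 : ‖∑ t ∈ range T, ch u ^ t‖ * ‖ch u - 1‖ ≤ 2 := by
    rw [← norm_mul, h1]
    refine (norm_sub_le _ _).trans ?_
    rw [norm_pow, norm_ch, one_pow, norm_one]
    norm_num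
  have h3 := le_norm_ch_sub_one u
  have h4 := norm_nonneg (∑ t ∈ range T, ch u ^ t)
  nlinarith

/-- orthogonality -/
theorem sum_ch (b : ZMod Q) : ∑ x : ZMod Q, ch (x * b) = if b = 0 then (Q : ℂ) else 0 := by
  have h := AddChar.sum_mulShift b (ZMod.isPrimitive_stdAddChar Q)
  unfold ch
  rw [h, ZMod.card]
  split_ifs <;> simp

end Vale.Agent.P057Z.Ke
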