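import Vale.Agent.P057Z.Ke.Kill
import Mathlib.LinearAlgebra.Basis.VectorSpace

/-!
P057 (block Ke): annihilators, popular centres (POP), averaging over an annihilator (AVG).
-/

set_option linter.unusedSectionVars false

open Finset
open scoped BigOperators

noncomputable section

namespace Vale.Agent.P057Z.Ke

open Vale.Agent.P057Z

variable {Q : ℕ} [Fact Q.Prime] {ι : Type} [Fintype ι] [DecidableEq ι]

theorem mem_perp {K : Submodule (ZMod Q) (ι → ZMod Q)} {u : ι → ZMod Q} :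
    u ∈ perp K ↔ ∀ k ∈ K, k ⬝ᵥ u = 0 := by
  simp [perp]

theorem zero_mem_perp (K : Submodule (ZMod Q) (ι → ZMod Q)) : (0 : ι → ZMod Q) ∈ perp K :=
  mem_perp.2 fun _ _ => dotProduct_zero _

theorem perp_nonempty (K : Submodule (ZMod Q) (ι → ZMod Q)) : (perp K).Nonempty :=
  ⟨0, zero_mem_perp K⟩

theorem add_mem_perp {K : Submodule (ZMod Q) (ι → ZMod Q)} {u v : ι → ZMod Q} (hu : u ∈ perp K)
    (hv : v ∈ perp K) : u + v ∈ perp K :=
  mem_perp.2 fun k hk => by rw [dotProduct_add, mem_perp.1 hu k hk, mem_perp.1 hv k hk, add_zero]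

theorem smul_mem_perp {K : Submodule (ZMod Q) (ι → ZMod Q)} (c : ZMod Q) {u : ι → ZMod Q}
    (hu : u ∈ perp K) : c • u ∈ perp K :=
  mem_perp.2 fun k hk => by rw [dotProduct_smul, mem_perp.1 hu k hk, smul_zero]

theorem neg_mem_perp {K : Submodule (ZMod Q) (ι → ZMod Q)} {u : ι → ZMod Q}
    (hu : u ∈ perp K) : -u ∈ perp K :=
  mem_perp.2 fun k hk => by rw [dotProduct_neg, mem_perp.1 hu k hk, neg_zero]

theorem sub_mem_perp {K : Submodule (ZMod Q) (ι → ZMod Q)} {u v : ι → ZMod Q} (hu : u ∈ perp K)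
    (hv : v ∈ perp K) : u - v ∈ perp K := by
  rw [sub_eq_add_neg]
  exact add_mem_perp hu (neg_mem_perp hv)

/-- averages over an annihilator are invariant under its translations -/
theorem expect_perp_add {M : Type*} [AddCommMonoid M] [Module ℚ≥0 M]
    {K : Submodule (ZMod Q) (ι → ZMod Q)} {v : ι → ZMod Q} (hv : v ∈ perp K)
    (g : (ι → ZMod Q) → M) : 𝔼 w ∈ perp K, g (w + v) = 𝔼 w ∈ perp K, g w := by
  refine expect_nbij' (fun w => w + v) (fun w => w - v) (fun w hw => add_mem_perp hw hv)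
    (fun w hw => sub_mem_perp hw hv) (fun w _ => by simp) (fun w _ => by simp) (fun _ _ => rfl)

theorem lap_pos (ρ : ℝ) (u : ι → ZMod Q) : 0 < lap ρ u := Real.exp_pos _

theorem lap_ge {ρ : ℝ} (hρ : 0 < ρ) {u : ι → ZMod Q} (hu : l1 u ≤ ρ) : 1 / 3 ≤ lap ρ u := by
  have h5 : Real.exp (-1) ≤ lap ρ u := by
    refine Real.exp_le_exp.2 ?_
    rw [le_div_iff₀ hρ]
    linarith
  refine le_trans ?_ h5
  rw [Real.exp_neg, one_div]
  exact inv_anti₀ (Real.exp_pos 1) (by linarith [Real.exp_one_lt_d9])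

theorem pop_one {α : Type} (s : Finset α) (L : α → ι → ZMod Q) (hs : s.Nonempty) {ρ : ℝ}
    (hρ : 0 < ρ) (hρ1 : ρ ≤ 1) : ∃ x0 ∈ s,
      (ρ / (3 * (Fintype.card ι + 1))) ^ Fintype.card ι / 3 ≤ 𝔼 x ∈ s, lap ρ (L x - L x0) := by
  classical
  set d := Fintype.card ι with hd
  have hd0 : (0 : ℝ) ≤ d := Nat.cast_nonneg _
  set R : ℕ := ⌈((d : ℝ) + 1) / ρ⌉₊ with hR
  have hx : (1 : ℝ) ≤ (d + 1) / ρ := by
    rw [le_div_iff₀ hρ]
    linarith
  have hR1 : 1 ≤ R := Nat.ceil_pos.2 (by linarith)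
  have hR0 : (0 : ℝ) < R := by exact_mod_cast hR1
  have hRl : ((d : ℝ) + 1) / ρ ≤ R := Nat.le_ceil _
  have hRu : (R : ℝ) ≤ 3 * ((d + 1) / ρ) := by
    have := Nat.ceil_lt_add_one (by linarith : (0 : ℝ) ≤ (d + 1) / ρ)
    linarith
  let C : Finset (ι → ℕ) := Fintype.piFinset fun _ => range R
  have hC : C.card = R ^ d := by
    rw [Fintype.card_piFinset]
    simp [hd]
  let f : α → ι → ℕ := fun x i => cell R (L x i)
  have hf : ∀ x ∈ s, f x ∈ C := fun x _ =>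
    Fintype.mem_piFinset.2 fun i => mem_range.2 (cell_lt hR1 _)
  obtain ⟨x0, hx0, hmax⟩ := exists_max_image s (fun y => (s.filter fun x => f x = f y).card) hs
  refine ⟨x0, hx0, ?_⟩
  set G := s.filter fun x => f x = f x0 with hG
  have h1 : s.card ≤ G.card * C.card := by
    refine card_le_mul_card_image_of_maps_to hf _ fun c _ => ?_
    rcases (s.filter fun x => f x = c).eq_empty_or_nonempty with h | ⟨y, hy⟩
    · rw [h]
      simp
    · obtain ⟨hy1, hy2⟩ := mem_filter.1 hy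
      rw [← hy2]
      exact hmax y hy1
  rw [hC] at h1
  have h1' : (s.card : ℝ) ≤ G.card * (R : ℝ) ^ d := by exact_mod_cast h1
  have h2 : ∀ x ∈ G, (1 / 3 : ℝ) ≤ lap ρ (L x - L x0) := by
    intro x hx
    have h3 : l1 (L x - L x0) ≤ d * (1 / (R : ℝ)) :=
      l1_le_card fun i => nm_le_of_cell hR1 (congrFun (mem_filter.1 hx).2 i)
    refine lap_ge hρ (h3.trans ?_)
    rw [mul_one_div, div_le_iff₀ hR0]
    rw [div_le_iff₀ hρ] at hRl
    linarith
  have h6 : (G.card : ℝ) * (1 / 3) ≤ ∑ x ∈ s, lap ρ (L x - L x0) := by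
    refine le_trans ?_ (sum_le_sum_of_subset_of_nonneg (filter_subset (fun x => f x = f x0) s)
      fun u _ _ => (lap_pos ρ _).le)
    simpa using card_nsmul_le_sum G _ _ h2
  have hH0 : (0 : ℝ) < s.card := by exact_mod_cast hs.card_pos
  rw [expect_eq_sum_div_card, le_div_iff₀ hH0]
  refine le_trans ?_ h6
  have h7 : (ρ / (3 * (d + 1))) ^ d * (R : ℝ) ^ d ≤ 1 := by
    rw [← mul_pow]
    refine pow_le_one₀ (by positivity) ?_
    calc ρ / (3 * (d + 1)) * R ≤ ρ / (3 * (d + 1)) * (3 * ((d + 1) / ρ)) := by gcongr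
      _ = 1 := by field_simp
  calc (ρ / (3 * (d + 1))) ^ d / 3 * (s.card : ℝ)
      ≤ (ρ / (3 * (d + 1))) ^ d / 3 * (G.card * (R : ℝ) ^ d) := by gcongr
    _ = (ρ / (3 * (d + 1))) ^ d * (R : ℝ) ^ d * (G.card * (1 / 3)) := by ring
    _ ≤ 1 * (G.card * (1 / 3)) := by gcongr
    _ = G.card * (1 / 3) := one_mul _

theorem pop : POP := by
  intro Q _ ι _ _ ρ hρ hρ1
  refine ⟨fun α s L hs => pop_one s L hs hρ hρ1, fun K => ?_⟩
  obtain ⟨x0, hx0, h⟩ := pop_one (perp K) (fun x => x) (perp_nonempty K) hρ hρ1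
  refine h.trans (le_of_eq ?_)
  unfold avg
  simp_rw [zero_add, sub_eq_add_neg]
  exact expect_perp_add (neg_mem_perp hx0) (lap ρ)

/-- a vector outside `K` is detected by the annihilator of `K` -/
theorem exists_perp_ne {K : Submodule (ZMod Q) (ι → ZMod Q)} {k : ι → ZMod Q} (hk : k ∉ K) :
    ∃ v ∈ perp K, k ⬝ᵥ v ≠ 0 := by
  obtain ⟨f, h1, h2⟩ := Submodule.exists_le_ker_of_notMem hk
  have hf : ∀ x, f x = x ⬝ᵥ fun i => f (Pi.single i 1) := by
    intro x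
    rw [LinearMap.pi_apply_eq_sum_univ]
    refine sum_congr rfl fun i _ => ?_
    rw [smul_eq_mul]
    congr 2
    funext j
    rw [Pi.single_apply]
    simp [eq_comm]
  refine ⟨fun i => f (Pi.single i 1), mem_perp.2 fun x hx => ?_, ?_⟩
  · rw [← hf]
    exact h2 hx
  · rw [← hf]
    exact h1

theorem ch_ne_one {u : ZMod Q} (hu : u ≠ 0) : ch u ≠ 1 := by
  intro h
  apply hu
  have h1 : ZMod.stdAddChar u = ZMod.stdAddChar (0 : ZMod Q) := by
    rw [AddChar.map_zero_eq_one]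
    exact h
  exact ZMod.injective_stdAddChar h1

open Classical in
theorem expect_perp_ch (K : Submodule (ZMod Q) (ι → ZMod Q)) (k : ι → ZMod Q) :
    𝔼 v ∈ perp K, ch (k ⬝ᵥ v) = if k ∈ K then 1 else 0 := by
  split_ifs with hk
  · rw [← expect_const (perp_nonempty K) (1 : ℂ)]
    refine expect_congr rfl fun v hv => ?_
    rw [mem_perp.1 hv k hk, ch_zero]
  · obtain ⟨v, hv, h⟩ := exists_perp_ne hk
    have h1 := expect_perp_add hv fun w => ch (k ⬝ᵥ w)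
    simp_rw [dotProduct_add, ch_add] at h1
    rw [← expect_mul] at h1
    have h2 : (𝔼 w ∈ perp K, ch (k ⬝ᵥ w)) * (ch (k ⬝ᵥ v) - 1) = 0 := by
      rw [mul_sub, h1, mul_one, sub_self]
    exact (mul_eq_zero.1 h2).resolve_right (sub_ne_zero.2 (ch_ne_one h))

theorem ofReal_expect' {α : Type*} (s : Finset α) (f : α → ℝ) :
    ((𝔼 x ∈ s, f x : ℝ) : ℂ) = 𝔼 x ∈ s, (f x : ℂ) := by
  rw [expect_eq_sum_div_card, expect_eq_sum_div_card]
  push_cast
  rfl

theorem norm_expect_le' {α : Type*} {s : Finset α} (hs : s.Nonempty) {f : α → ℂ} {M : ℝ}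
    (h : ∀ x ∈ s, ‖f x‖ ≤ M) : ‖𝔼 x ∈ s, f x‖ ≤ M :=
  (RCLike.norm_expect_le (K := ℂ)).trans (expect_le hs h)

theorem avg_ll {K : Submodule (ZMod Q) (ι → ZMod Q)} {Ψ : (ι → ZMod Q) → ℝ} {lam : ℝ}
    (h : LL lam Ψ) : LL lam (avg K Ψ) := by
  refine ⟨fun u => expect_pos (fun v _ => h.pos _) (perp_nonempty K),
    fun u => expect_le (perp_nonempty K) fun v _ => h.le_one _, fun u v => ?_⟩
  unfold avg
  rw [mul_expect]
  refine expect_le_expect fun w _ => ?_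
  rw [add_right_comm]
  exact h.lip _ _

theorem avg_add {K : Submodule (ZMod Q) (ι → ZMod Q)} (Ψ : (ι → ZMod Q) → ℝ) (u : ι → ZMod Q)
    {v : ι → ZMod Q} (hv : v ∈ perp K) : avg K Ψ (u + v) = avg K Ψ u := by
  unfold avg
  rw [← expect_perp_add hv fun w => Ψ (u + w)]
  refine expect_congr rfl fun w _ => ?_
  rw [add_assoc, add_comm v w]

open Classical in
theorem avg_fa {K : Submodule (ZMod Q) (ι → ZMod Q)} {Ψ : (ι → ZMod Q) → ℝ} {K0 : ℕ} {η : ℝ}
    {c : (ι → ℤ) → ℂ} (h : ∀ u, ‖(Ψ u : ℂ) - ∑ k ∈ Sm ι K0, c k * ch (cs Q k ⬝ᵥ u)‖ ≤ η)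
    (u : ι → ZMod Q) : ‖(avg K Ψ u : ℂ) - ∑ k ∈ Sm ι K0,
      (if cs Q k ∈ K then c k else 0) * ch (cs Q k ⬝ᵥ u)‖ ≤ η := by
  have h1 : ∑ k ∈ Sm ι K0, (if cs Q k ∈ K then c k else 0) * ch (cs Q k ⬝ᵥ u) =
      𝔼 v ∈ perp K, ∑ k ∈ Sm ι K0, c k * ch (cs Q k ⬝ᵥ (u + v)) := by
    rw [expect_sum_comm]
    refine sum_congr rfl fun k _ => ?_
    simp_rw [dotProduct_add, ch_add, ← mul_assoc]
    rw [← mul_expect, expect_perp_ch]
    split_ifs <;> simp
  unfold avg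
  rw [h1, ofReal_expect', ← expect_sub_distrib]
  exact norm_expect_le' (perp_nonempty K) fun v _ => h _

theorem avg_ : AVG := by
  intro Q _ ι _ _ K Ψ
  exact ⟨fun _ h => avg_ll h, fun u _ hv => avg_add Ψ u hv, fun _ _ _ h u => avg_fa h u⟩

end Vale.Agent.P057Z.Ke
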