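import Vale.Agent.P057Z.Ke.Pop
import Mathlib.Analysis.PSeries

/-!
P057 (block Ke): smoothing (SM).
-/

set_option linter.unusedSectionVars false

open Finset
open scoped BigOperators

noncomputable section

namespace Vale.Agent.P057Z.Ke

open Vale.Agent.P057Z

variable {Q : ℕ} [Fact Q.Prime] {ι : Type} [Fintype ι] [DecidableEq ι]

theorem expect_pi_prod {α β : Type*} [Fintype α] [DecidableEq α] (t : Finset β) (f : α → β → ℂ) :
    𝔼 s ∈ Fintype.piFinset (fun _ : α => t), ∏ a, f a (s a) = ∏ a, 𝔼 x ∈ t, f a x := by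
  simp only [expect_eq_sum_div_card]
  rw [prod_div_distrib, prod_univ_sum, Fintype.card_piFinset]
  push_cast
  rfl

/-- Fourier coefficient -/
def hat (Ψ : (ι → ZMod Q) → ℝ) (k : ι → ZMod Q) : ℂ := 𝔼 x, (Ψ x : ℂ) * ch (-(k ⬝ᵥ x))

theorem norm_hat_le {Ψ : (ι → ZMod Q) → ℝ} (h : ∀ x, |Ψ x| ≤ 1) (k : ι → ZMod Q) :
    ‖hat Ψ k‖ ≤ 1 :=
  norm_expect_le' univ_nonempty fun x _ => by
    rw [norm_mul, norm_ch, mul_one, Complex.norm_real]
    exact h x

theorem expect_ch (w : ι → ZMod Q) : 𝔼 k, ch (k ⬝ᵥ w) = if w = 0 then 1 else 0 := by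
  have h := expect_perp_ch (⊥ : Submodule (ZMod Q) (ι → ZMod Q)) w
  have h1 : perp (⊥ : Submodule (ZMod Q) (ι → ZMod Q)) = univ := by
    refine eq_univ_of_forall fun u => mem_perp.2 fun k hk => ?_
    rw [(Submodule.mem_bot _).1 hk, zero_dotProduct]
  rw [h1] at h
  simp_rw [dotProduct_comm _ w]
  rw [h]
  simp

theorem inversion (Ψ : (ι → ZMod Q) → ℝ) (u : ι → ZMod Q) :
    (Ψ u : ℂ) = ∑ k, hat Ψ k * ch (k ⬝ᵥ u) := by
  have h1 : ∀ k, hat Ψ k * ch (k ⬝ᵥ u) = 𝔼 x, (Ψ x : ℂ) * ch (k ⬝ᵥ (u - x)) := by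
    intro k
    unfold hat
    rw [expect_mul]
    refine expect_congr rfl fun x _ => ?_
    rw [mul_assoc, ← ch_add, dotProduct_sub]
    congr 2
    ring
  have h2 : ∑ k, 𝔼 x, (Ψ x : ℂ) * ch (k ⬝ᵥ (u - x)) =
      ∑ x, 𝔼 k, (Ψ x : ℂ) * ch (k ⬝ᵥ (u - x)) := by
    simp only [expect_eq_sum_div_card]
    rw [← sum_div, ← sum_div, sum_comm]
  simp_rw [h1]
  rw [h2]
  simp_rw [← mul_expect, expect_ch, sub_eq_zero]
  simp

/-- the Dirichlet kernel -/
def dir (m : ℕ) (t : ZMod Q) : ℂ := 𝔼 s ∈ range m, ch ((s : ZMod Q) * t)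

theorem norm_dir_le_one {m : ℕ} (hm : 1 ≤ m) (t : ZMod Q) : ‖dir m t‖ ≤ 1 :=
  norm_expect_le' (nonempty_range_iff.2 (by omega)) fun _ _ => (norm_ch _).le

theorem norm_dir_le {m : ℕ} (hm : 1 ≤ m) (t : ZMod Q) : 2 * nm t * m * ‖dir m t‖ ≤ 1 := by
  have hm0 : (0 : ℝ) < m := by exact_mod_cast hm
  unfold dir
  rw [expect_eq_sum_div_card, norm_div, card_range, Complex.norm_natCast]
  refine le_trans (le_of_eq ?_) (geom_le m t)
  rw [mul_assoc, mul_div_cancel₀ _ hm0.ne']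

/-- the sum of `J` points of the cube of side `m` -/
def sv (Q : ℕ) {J : ℕ} (s : Fin J × ι → ℕ) : ι → ZMod Q := fun i => ∑ j, (s (j, i) : ZMod Q)

/-- the smoothed function -/
def smo (m J : ℕ) (Ψ : (ι → ZMod Q) → ℝ) (u : ι → ZMod Q) : ℝ :=
  𝔼 s ∈ Fintype.piFinset (fun _ : Fin J × ι => range m), Ψ (u + sv Q s)

theorem smo_eq (m J : ℕ) (Ψ : (ι → ZMod Q) → ℝ) (u : ι → ZMod Q) :
    (smo m J Ψ u : ℂ) = ∑ k, hat Ψ k * (∏ i, dir m (k i) ^ J) * ch (k ⬝ᵥ u) := by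
  unfold smo
  rw [ofReal_expect']
  simp_rw [inversion Ψ (u + _)]
  rw [expect_sum_comm]
  refine sum_congr rfl fun k _ => ?_
  have h1 : ∀ s : Fin J × ι → ℕ, ch (k ⬝ᵥ sv Q s) = ∏ a : Fin J × ι, ch ((s a : ZMod Q) * k a.2) := by
    intro s
    rw [← ch_sum, Fintype.sum_prod_type_right]
    congr 1
    refine sum_congr rfl fun i _ => ?_
    unfold sv
    rw [mul_sum]
    exact sum_congr rfl fun j _ => mul_comm _ _
  simp_rw [dotProduct_add, ch_add, ← mul_assoc, h1]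
  rw [← mul_expect, expect_pi_prod (range m) fun (a : Fin J × ι) (x : ℕ) =>
    ch ((x : ZMod Q) * k a.2), Fintype.prod_prod_type_right]
  have h2 : ∀ i, ∏ _j : Fin J, 𝔼 x ∈ range m, ch ((x : ZMod Q) * k i) = dir m (k i) ^ J := by
    intro i
    rw [prod_const, card_univ, Fintype.card_fin]
    rfl
  simp_rw [h2]
  ring

/-- the small residues -/
def sres (Q K0 : ℕ) : Finset (ZMod Q) := (Icc (-(K0 : ℤ)) K0).image (Int.cast : ℤ → ZMod Q)

theorem card_sres (K0 : ℕ) : (sres Q K0).card ≤ 2 * K0 + 1 := by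
  refine card_image_le.trans (le_of_eq ?_)
  rw [Int.card_Icc]
  omega

theorem sum_Sm_eq {K0 : ℕ} (hK : 2 * K0 < Q) (G : (ι → ZMod Q) → ℂ) :
    ∑ k ∈ Sm ι K0, G (cs Q k) = ∑ k ∈ Fintype.piFinset (fun _ : ι => sres Q K0), G k := by
  refine sum_nbij (cs Q) (fun k hk => ?_) (fun a ha b hb h => ?_) (fun k hk => ?_) fun _ _ => rfl
  · exact Fintype.mem_piFinset.2 fun i => mem_image_of_mem _ (Fintype.mem_piFinset.1 hk i)
  · funext i
    have h1 := abs_le.1 (mem_Sm.1 (mem_coe.1 ha) i)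
    have h2 := abs_le.1 (mem_Sm.1 (mem_coe.1 hb) i)
    have h3 := (ZMod.intCast_eq_intCast_iff_dvd_sub _ _ _).1 (congrFun h i)
    have h4 := Int.eq_zero_of_abs_lt_dvd h3 (by rw [abs_lt]; constructor <;> omega)
    omega
  · choose z hz1 hz2 using fun i => mem_image.1 (Fintype.mem_piFinset.1 (mem_coe.1 hk) i)
    exact ⟨z, mem_coe.2 (Fintype.mem_piFinset.2 hz1), funext hz2⟩

theorem smo_fa {m J K0 : ℕ} (hm : 1 ≤ m) (hK : 2 * K0 < Q) {Ψ : (ι → ZMod Q) → ℝ}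
    (h : ∀ x, |Ψ x| ≤ 1) {τ A : ℝ} (hτ : ∑ t ∈ univ \ sres Q K0, ‖dir m t‖ ^ J ≤ τ)
    (hA : 2 * K0 + 1 + τ ≤ A) :
    FA (smo m J Ψ) K0 (A ^ Fintype.card ι) (τ * Fintype.card ι * A ^ Fintype.card ι) := by
  have hτ0 : 0 ≤ ∑ t ∈ univ \ sres Q K0, ‖dir m t‖ ^ J := sum_nonneg fun _ _ => by positivity
  have hK0 : (0 : ℝ) ≤ K0 := Nat.cast_nonneg _
  have hn : ∀ k : ι → ZMod Q, ‖hat Ψ k * ∏ i, dir m (k i) ^ J‖ ≤ ∏ i, ‖dir m (k i)‖ ^ J := by
    intro k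
    rw [norm_mul, norm_prod]
    simp_rw [norm_pow]
    exact mul_le_of_le_one_left (prod_nonneg fun _ _ => by positivity) (norm_hat_le h k)
  refine ⟨fun k => hat Ψ (cs Q k) * ∏ i, dir m (cs Q k i) ^ J, ?_, fun u => ?_⟩
  · have h1 : ∀ k ∈ Sm ι K0, ‖hat Ψ (cs Q k) * ∏ i, dir m (cs Q k i) ^ J‖ ≤ 1 := fun k _ =>
      (hn _).trans (prod_le_one (fun _ _ => by positivity) fun i _ =>
        pow_le_one₀ (norm_nonneg _) (norm_dir_le_one hm _))
    refine (sum_le_card_nsmul _ _ _ h1).trans ?_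
    have h2 : (Sm ι K0).card = (2 * K0 + 1) ^ Fintype.card ι := by
      rw [Sm, Fintype.card_piFinset, prod_const, card_univ, Int.card_Icc]
      congr 1
      omega
    rw [h2, nsmul_eq_mul, mul_one]
    push_cast
    exact pow_le_pow_left₀ (by positivity) (by linarith) _
  · set P := Fintype.piFinset fun _ : ι => sres Q K0 with hP
    rw [sum_Sm_eq hK fun k => hat Ψ k * (∏ i, dir m (k i) ^ J) * ch (k ⬝ᵥ u), smo_eq,
      ← sum_sdiff (subset_univ P), add_sub_cancel_right]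
    set a := ∑ t, ‖dir m (t : ZMod Q)‖ ^ J with ha
    set b := ∑ t ∈ sres Q K0, ‖dir m t‖ ^ J with hb
    have h1 : ∑ k ∈ univ \ P, ∏ i, ‖dir m (k i)‖ ^ J =
        a ^ Fintype.card ι - b ^ Fintype.card ι := by
      rw [eq_sub_iff_add_eq, ← card_univ, ← prod_const, ← prod_const, ha, hb, prod_univ_sum,
        prod_univ_sum, Fintype.piFinset_univ]
      exact sum_sdiff (subset_univ P)
    have h2 : a = ∑ t ∈ univ \ sres Q K0, ‖dir m t‖ ^ J + b := (sum_sdiff (subset_univ _)).symm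
    have hb0 : 0 ≤ b := sum_nonneg fun _ _ => by positivity
    have hb1 : b ≤ 2 * K0 + 1 := by
      refine (sum_le_card_nsmul _ _ 1 fun t _ =>
        pow_le_one₀ (norm_nonneg _) (norm_dir_le_one hm _)).trans ?_
      rw [nsmul_eq_mul, mul_one]
      exact_mod_cast card_sres K0
    have hA1 : 1 ≤ A := by linarith
    calc _ ≤ ∑ k ∈ univ \ P, ∏ i, ‖dir m (k i)‖ ^ J := by
          refine (norm_sum_le _ _).trans (sum_le_sum fun k _ => ?_)
          rw [norm_mul, norm_ch, mul_one]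
          exact hn k
      _ ≤ |a - b| * Fintype.card ι * max |a| |b| ^ (Fintype.card ι - 1) := by
          rw [h1]
          exact (le_abs_self _).trans (abs_pow_sub_pow_le _ _ _)
      _ ≤ τ * Fintype.card ι * A ^ Fintype.card ι := by
          have h3 : |a - b| ≤ τ := by
            rw [abs_of_nonneg (by linarith)]
            linarith
          have h4 : max |a| |b| ≤ A := by
            rw [abs_of_nonneg (by linarith), abs_of_nonneg hb0]
            exact max_le (by linarith) (by linarith)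
          have h5 : max |a| |b| ^ (Fintype.card ι - 1) ≤ A ^ Fintype.card ι :=
            (pow_le_pow_left₀ (le_max_of_le_left (abs_nonneg _)) h4 _).trans
              (pow_le_pow_right₀ hA1 (Nat.sub_le _ _))
          have h6 : 0 ≤ τ := hτ0.trans hτ
          gcongr

/-- the tail of the power of the Dirichlet kernel -/
theorem tail_le {m J K0 : ℕ} (hm : 1 ≤ m) (hK : 1 ≤ K0) {a θ : ℝ} (ha : (Q : ℝ) ≤ 2 * m * a)
    (hθ : a ≤ θ * K0) :
    ∑ t ∈ univ \ sres Q K0, ‖dir m (t : ZMod Q)‖ ^ (J + 2) ≤ 2 * a ^ 2 * θ ^ J := by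
  have hm0 : (0 : ℝ) < m := by exact_mod_cast hm
  have hK0 : (1 : ℝ) ≤ K0 := by exact_mod_cast hK
  have hQ : (0 : ℝ) < Q := Qpos
  have ha0 : 0 < a := by
    by_contra h
    have := mul_nonneg (by positivity : (0 : ℝ) ≤ 2 * m) (neg_nonneg.2 (not_lt.1 h))
    linarith
  have hθ0 : 0 < θ := by
    by_contra h
    have := mul_nonneg (neg_nonneg.2 (not_lt.1 h)) (by linarith : (0 : ℝ) ≤ K0)
    linarith
  let g : ZMod Q → ℕ := fun t => t.valMinAbs.natAbs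
  have hg : ∀ t ∈ univ \ sres Q K0, g t ∈ Ioo K0 Q := by
    intro t ht
    refine mem_Ioo.2 ⟨?_, ?_⟩
    · by_contra h
      refine (mem_sdiff.1 ht).2 (mem_image.2 ⟨t.valMinAbs, ?_, ZMod.coe_valMinAbs t⟩)
      rw [mem_Icc]
      simp only [g] at h
      omega
    · have h1 := ZMod.natAbs_valMinAbs_le t
      have h2 : 0 < Q := (Fact.out : Q.Prime).pos
      simp only [g]
      omega
  have h1 : ∀ t ∈ univ \ sres Q K0,
      ‖dir m t‖ ^ (J + 2) ≤ a ^ 2 * θ ^ J * (((g t : ℕ) : ℝ) ^ 2)⁻¹ := by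
    intro t ht
    have h2 : (K0 : ℝ) < g t := by exact_mod_cast (mem_Ioo.1 (hg t ht)).1
    have h3 : nm t = g t / Q := by
      simp only [nm, g, Nat.cast_natAbs, Int.cast_abs]
    have h4 := norm_dir_le hm t
    have h5 : ‖dir m t‖ ≤ a / g t := by
      rw [le_div_iff₀ (by linarith)]
      rw [h3] at h4
      have h6 : 2 * m * (‖dir m t‖ * g t) ≤ Q := by
        have := mul_le_mul_of_nonneg_right h4 hQ.le
        refine le_trans (le_of_eq ?_) (this.trans (le_of_eq (one_mul _)))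
        field_simp
      exact le_of_mul_le_mul_left (h6.trans ha) (by positivity)
    have h7 : a / g t ≤ θ := by
      rw [div_le_iff₀ (by linarith)]
      exact hθ.trans (mul_le_mul_of_nonneg_left h2.le hθ0.le)
    calc ‖dir m t‖ ^ (J + 2) = ‖dir m t‖ ^ J * ‖dir m t‖ ^ 2 := pow_add _ _ _
      _ ≤ θ ^ J * (a / g t) ^ 2 := by
          gcongr
          exact h5.trans h7
      _ = _ := by ring
  refine (sum_le_sum h1).trans ?_
  rw [← mul_sum, ← sum_fiberwise_of_maps_to' hg fun b : ℕ => ((b : ℝ) ^ 2)⁻¹]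
  have h2 : ∀ b ∈ Ioo K0 Q, ∑ _t ∈ (univ \ sres Q K0).filter fun t => g t = b, ((b : ℝ) ^ 2)⁻¹ ≤
      2 * ((b : ℝ) ^ 2)⁻¹ := by
    intro b _
    rw [sum_const, nsmul_eq_mul]
    refine mul_le_mul_of_nonneg_right ?_ (by positivity)
    have h3 : ((univ \ sres Q K0).filter fun t => g t = b) ⊆ {(b : ZMod Q), -(b : ZMod Q)} := by
      intro t ht
      have h4 := (mem_filter.1 ht).2
      have h5 := ZMod.coe_valMinAbs t
      rw [mem_insert, mem_singleton]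
      rcases Int.natAbs_eq t.valMinAbs with h | h
      · left
        rw [← h5, h, ← h4]
        simp [g]
      · right
        rw [← h5, h, ← h4]
        simp [g]
    exact_mod_cast (card_le_card h3).trans card_le_two
  have h3 : ∑ b ∈ Ioo K0 Q, 2 * ((b : ℝ) ^ 2)⁻¹ ≤ 2 := by
    rw [← mul_sum]
    have h4 := sum_Ioo_inv_sq_le (α := ℝ) K0 Q
    have h5 : (2 : ℝ) / (K0 + 1) ≤ 1 := by
      rw [div_le_one (by linarith)]
      linarith
    linarith
  calc _ ≤ a ^ 2 * θ ^ J * 2 :=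
        mul_le_mul_of_nonneg_left ((sum_le_sum h2).trans h3) (by positivity)
    _ = _ := by ring

theorem l1_sv_le {m J : ℕ} {s : Fin J × ι → ℕ}
    (hs : s ∈ Fintype.piFinset fun _ : Fin J × ι => range m) :
    l1 (sv Q s) ≤ Fintype.card ι * (J * (m / Q : ℝ)) := by
  refine l1_le_card fun i => (nm_sum_le _ _).trans ?_
  refine (sum_le_card_nsmul _ _ (m / Q : ℝ) fun j _ => (nm_natCast_le _).trans ?_).trans ?_
  · have h := mem_range.1 (Fintype.mem_piFinset.1 hs (j, i))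
    have h1 : (s (j, i) : ℝ) ≤ m := by exact_mod_cast h.le
    exact div_le_div_of_nonneg_right h1 Qpos.le
  · simp

theorem smo_ll {m J : ℕ} (hm : 1 ≤ m) {lam : ℝ} {Ψ : (ι → ZMod Q) → ℝ} (h : LL lam Ψ) :
    LL lam (smo m J Ψ) := by
  have hne : (Fintype.piFinset fun _ : Fin J × ι => range m).Nonempty :=
    Fintype.piFinset_nonempty.2 fun _ => nonempty_range_iff.2 (by omega)
  refine ⟨fun u => expect_pos (fun v _ => h.pos _) hne,
    fun u => expect_le hne fun v _ => h.le_one _, fun u v => ?_⟩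
  unfold smo
  rw [mul_expect]
  refine expect_le_expect fun w _ => ?_
  rw [add_right_comm]
  exact h.lip _ _

theorem smo_close {m J : ℕ} (hm : 1 ≤ m) {lam e : ℝ} {Ψ : (ι → ZMod Q) → ℝ} (h : LL lam Ψ)
    (hl : 0 ≤ lam) (he1 : e ≤ 1) (he : lam * (Fintype.card ι * (J * (m / Q : ℝ))) ≤ e / 2)
    (u : ι → ZMod Q) : (1 - e) * Ψ u ≤ smo m J Ψ u ∧ smo m J Ψ u ≤ (1 + e) * Ψ u := by
  have hne : (Fintype.piFinset fun _ : Fin J × ι => range m).Nonempty :=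
    Fintype.piFinset_nonempty.2 fun _ => nonempty_range_iff.2 (by omega)
  have h0 : 0 ≤ e / 2 := le_trans (by positivity) he
  have h1 : Real.exp (e / 2) ≤ 1 + e := by
    refine (Real.exp_bound_div_one_sub_of_interval h0 (by linarith)).trans ?_
    rw [div_le_iff₀ (by linarith)]
    nlinarith
  have h2 : ∀ s ∈ Fintype.piFinset fun _ : Fin J × ι => range m,
      Real.exp (lam * l1 (sv Q s)) ≤ 1 + e := fun s hs =>
    (Real.exp_le_exp.2 ((mul_le_mul_of_nonneg_left (l1_sv_le hs) hl).trans he)).trans h1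
  refine ⟨le_expect hne fun s hs => ?_, expect_le hne fun s hs => ?_⟩
  · have h3 := h.lip (u + sv Q s) (-sv Q s)
    rw [add_neg_cancel_right, l1_neg] at h3
    have h4 := h.pos (u + sv Q s)
    have h5 := h3.trans (mul_le_mul_of_nonneg_right (h2 s hs) h4.le)
    have h6 := mul_le_mul_of_nonneg_left h5 (by linarith : 0 ≤ 1 - e)
    nlinarith [mul_nonneg (sq_nonneg e) h4.le]
  · exact (h.lip _ _).trans (mul_le_mul_of_nonneg_right (h2 s hs) (h.pos u).le)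

theorem num_exp {Y : ℝ} (hY : 10 ≤ Y) : 6 * Y ^ 2 + 3 ≤ Real.exp Y := by
  have h1 := Real.pow_div_factorial_le_exp Y (by linarith) 5
  have h2 : Y ^ 3 ≥ 1000 := by
    have := pow_le_pow_left₀ (by norm_num) hY 3
    linarith
  have h3 : Y ^ 2 ≥ 100 := by nlinarith
  have h4 : Y ^ 5 = Y ^ 3 * Y ^ 2 := by ring
  norm_num [Nat.factorial] at h1
  nlinarith

theorem num_close {Y E lam d j μ e : ℝ} (hY : 10 ≤ Y) (hE : 4 * Y ≤ E) (_hl0 : 0 ≤ lam)
    (hl : lam ≤ E) (hd0 : 0 ≤ d) (hd : d ≤ Y) (hj0 : 0 ≤ j) (hj : j ≤ 2 * E) (hμ0 : 0 ≤ μ)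
    (hμ : μ ≤ 1 / E ^ 4) (he : 1 / E ≤ e) : lam * (d * (j * μ)) ≤ e / 2 := by
  have hE0 : 0 < E := by linarith
  have hY0 : 0 < Y := by linarith
  calc lam * (d * (j * μ)) ≤ E * (Y * (2 * E * (1 / E ^ 4))) := by gcongr
    _ = (4 * Y / E) * (1 / E) / 2 := by
        field_simp
        ring
    _ ≤ 1 * e / 2 := by
        gcongr
        rw [div_le_one hE0]
        exact hE
    _ = e / 2 := by ring

theorem num_tail {Y J d A : ℝ} (hY : 10 ≤ Y) (hJ : J ≤ Real.exp Y) (hd : d ≤ Y)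
    (hA0 : 0 ≤ A) (hA : A ≤ Real.exp (5 * Y ^ 2)) :
    2 * Real.exp (8 * Y - (Real.exp Y + 6 * Y ^ 2)) * d * A ≤ Real.exp (-J) := by
  have hY0 : 0 < Y := by linarith
  have hY2 : 10 * Y ≤ Y ^ 2 := by nlinarith
  have hE := num_exp hY
  calc 2 * Real.exp (8 * Y - (Real.exp Y + 6 * Y ^ 2)) * d * A
      ≤ 2 * Real.exp (8 * Y - (Real.exp Y + 6 * Y ^ 2)) * Y * Real.exp (5 * Y ^ 2) := by gcongr
    _ = (2 * Y) * Real.exp (8 * Y - (Real.exp Y + 6 * Y ^ 2) + 5 * Y ^ 2) := by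
        rw [Real.exp_add _ (5 * Y ^ 2)]
        ring
    _ ≤ Real.exp Y * Real.exp (8 * Y - (Real.exp Y + 6 * Y ^ 2) + 5 * Y ^ 2) := by
        gcongr
        linarith
    _ ≤ Real.exp (-J) := by
        rw [← Real.exp_add]
        exact Real.exp_le_exp.2 (by linarith)

theorem sm : SM := by
  intro Q _ ι _ _ Y J lam e Ψ hY hd hl0 hl he0 he1 hJ hQ h
  have hd0 : (0 : ℝ) ≤ Fintype.card ι := Nat.cast_nonneg _
  have hE1 := num_exp hY
  have hnt := fun A hA0 hA => num_tail (A := A) hY hJ hd hA0 hA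
  have hp : ∀ k : ℕ, Real.exp (k * Y) = Real.exp Y ^ k := fun k => Real.exp_nat_mul Y k
  have h5 : Real.exp (5 * Y) = Real.exp Y ^ 5 := by exact_mod_cast hp 5
  have h8 : (Real.exp Y ^ 4) ^ 2 = Real.exp (8 * Y) := by
    rw [← pow_mul]
    exact_mod_cast (hp 8).symm
  have hA : (Real.exp Y ^ 5) ^ Fintype.card ι ≤ Real.exp (5 * Y ^ 2) := by
    rw [← h5, ← Real.exp_nat_mul]
    refine Real.exp_le_exp.2 ?_
    nlinarith
  rw [Real.exp_neg, ← one_div] at he0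
  rw [h5] at hQ ⊢
  clear hp h5 hJ
  generalize Real.exp Y = E at *
  have hY2 : 10 * Y ≤ Y ^ 2 := by nlinarith
  have hE2 : 600 ≤ E := by linarith
  have hE0 : 0 < E := by linarith
  have hE4 : 1 ≤ E ^ 4 := one_le_pow₀ (by linarith)
  have hE6 : 600 * E ^ 4 ≤ E ^ 5 := by
    rw [pow_succ' E 4]
    gcongr
  have hQ0 : (0 : ℝ) < Q := Qpos
  have hx : (1 : ℝ) ≤ Q / E ^ 4 := by
    rw [le_div_iff₀ (by positivity)]
    linarith
  obtain ⟨m, hm1, hmu, hml⟩ : ∃ m : ℕ, 1 ≤ m ∧ (m : ℝ) / Q ≤ 1 / E ^ 4 ∧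
      (Q : ℝ) ≤ 2 * m * E ^ 4 := by
    have hm1 : 1 ≤ ⌊(Q : ℝ) / E ^ 4⌋₊ := Nat.floor_pos.2 hx
    refine ⟨_, hm1, ?_, ?_⟩
    · rw [div_le_div_iff₀ hQ0 (by positivity), one_mul, ← le_div_iff₀ (by positivity)]
      exact Nat.floor_le (by linarith)
    · have hm1' : (1 : ℝ) ≤ ⌊(Q : ℝ) / E ^ 4⌋₊ := by exact_mod_cast hm1
      have h1 := Nat.lt_floor_add_one ((Q : ℝ) / E ^ 4)
      rw [div_lt_iff₀ (by positivity)] at h1
      refine h1.le.trans (mul_le_mul_of_nonneg_right (by linarith) (by positivity))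
  obtain ⟨K0, hK1, hKl, hKu⟩ : ∃ K0 : ℕ, 1 ≤ K0 ∧ 3 * E ^ 4 ≤ K0 ∧ (K0 : ℝ) ≤ 4 * E ^ 4 := by
    refine ⟨⌈3 * E ^ 4⌉₊, Nat.ceil_pos.2 (by positivity), Nat.le_ceil _, ?_⟩
    have := Nat.ceil_lt_add_one (by positivity : 0 ≤ 3 * E ^ 4)
    linarith
  have hKQ : 2 * K0 < Q := by
    have : (2 * K0 : ℝ) < Q := by linarith
    exact_mod_cast this
  obtain ⟨J', hJl, hJu⟩ : ∃ J' : ℕ, E + 6 * Y ^ 2 ≤ J' ∧ ((J' + 2 : ℕ) : ℝ) ≤ 2 * E := by
    refine ⟨⌈E + 6 * Y ^ 2⌉₊, Nat.le_ceil _, ?_⟩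
    have := Nat.ceil_lt_add_one (by positivity : 0 ≤ E + 6 * Y ^ 2)
    push_cast
    linarith
  have hθ : E ^ 4 ≤ Real.exp (-1) * K0 := by
    have h1 : (1 / 3 : ℝ) ≤ Real.exp (-1) := by
      rw [Real.exp_neg, one_div]
      exact inv_anti₀ (Real.exp_pos 1) (by linarith [Real.exp_one_lt_d9])
    calc E ^ 4 = 1 / 3 * (3 * E ^ 4) := by ring
      _ ≤ _ := by gcongr
  have hτ := tail_le (Q := Q) (J := J') hm1 hK1 hml hθ
  have hτ1 : 2 * (E ^ 4) ^ 2 * Real.exp (-1) ^ J' ≤ 2 * Real.exp (8 * Y - (E + 6 * Y ^ 2)) := by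
    rw [h8, ← Real.exp_nat_mul, mul_assoc, ← Real.exp_add]
    gcongr
    linarith
  have hτ2 : Real.exp (8 * Y - (E + 6 * Y ^ 2)) ≤ 1 := Real.exp_le_one_iff.2 (by linarith)
  have hb : ∀ x, |Ψ x| ≤ 1 := fun x => by
    rw [abs_of_pos (h.pos x)]
    exact h.le_one x
  obtain ⟨c, hc1, hc2⟩ := smo_fa (A := E ^ 5) hm1 hKQ hb (hτ.trans hτ1) (by linarith)
  exact ⟨smo m (J' + 2) Ψ, K0, by linarith, smo_ll hm1 h,
    smo_close hm1 h hl0 he1 (num_close hY (by linarith) hl0 hl hd0 hd (Nat.cast_nonneg _) hJu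
      (by positivity) hmu he0), c, hc1.trans (hA.trans (Real.exp_le_exp.2 (by linarith))),
    fun u => (hc2 u).trans (hnt _ (by positivity) hA)⟩

end Vale.Agent.P057Z.Ke
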